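import Mathlib

/-!
# Splitting lemma with adaptive offsets

A finite family of square integrable amplitudes `ψ w ≥ 0` on `Fin N → ℝ`, each supported in a
symmetric convex set `K w`, is split along a direction `u` into the amplitudes
`max (ψ (x + 3u)) (ψ (x - 3u))` and `min (ψ (x + 3u)) (ψ (x - 3u))`.
Author: helper42.
-/

set_option autoImplicit false
open MeasureTheory

namespace Crest.Agent.R239

variable {N : ℕ}

/-- Hypotheses on a family of amplitudes. -/
def Good {Ω : Type} (ψ : Ω → (Fin N → ℝ) → ℝ) (K : Ω → Set (Fin N → ℝ)) : Prop :=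
  (∀ w x, 0 ≤ ψ w x) ∧ (∀ w, MemLp (ψ w) 2 volume) ∧ (∀ w, Convex ℝ (K w)) ∧
    (∀ w x, x ∈ K w → -x ∈ K w) ∧ (∀ w x, ψ w x ≠ 0 → x ∈ K w)

/-- Weight of an amplitude. -/
noncomputable def wt (f : (Fin N → ℝ) → ℝ) : ℝ := ∫ x, f x ^ 2

/-- Affinity of an amplitude in direction `u`. -/
noncomputable def aff (f : (Fin N → ℝ) → ℝ) (u : Fin N → ℝ) : ℝ :=
  ∫ x, f (x + (3 : ℝ) • u) * f (x + -((3 : ℝ) • u))

/-- Weighted Minkowski average of the sets of the family. -/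
def Cset {Ω : Type} [Fintype Ω] (ψ : Ω → (Fin N → ℝ) → ℝ) (K : Ω → Set (Fin N → ℝ)) :
    Set (Fin N → ℝ) :=
  {z | ∃ a : Ω → Fin N → ℝ, (∀ w, wt (ψ w) = 0 ∨ a w ∈ K w) ∧
    (∑ w, wt (ψ w)) • z = ∑ w, wt (ψ w) • a w}

/-- The upper amplitude. -/
noncomputable def up (f : (Fin N → ℝ) → ℝ) (u : Fin N → ℝ) : (Fin N → ℝ) → ℝ :=
  fun x => max (f (x + (3 : ℝ) • u)) (f (x + -((3 : ℝ) • u)))

/-- The lower amplitude. -/
noncomputable def dn (f : (Fin N → ℝ) → ℝ) (u : Fin N → ℝ) : (Fin N → ℝ) → ℝ :=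
  fun x => min (f (x + (3 : ℝ) • u)) (f (x + -((3 : ℝ) • u)))

def upK (K : Set (Fin N → ℝ)) (u : Fin N → ℝ) : Set (Fin N → ℝ) :=
  {x | ∃ t : ℝ, |t| ≤ 3 ∧ x + t • u ∈ K}

def dnK (K : Set (Fin N → ℝ)) (u : Fin N → ℝ) : Set (Fin N → ℝ) :=
  {x | x + (3 : ℝ) • u ∈ K ∧ x + -((3 : ℝ) • u) ∈ K}

theorem memLp_shift {f : (Fin N → ℝ) → ℝ} (hf : MemLp f 2 volume) (a : Fin N → ℝ) :
    MemLp (fun x => f (x + a)) 2 volume :=
  hf.comp_measurePreserving (measurePreserving_add_right volume a)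

theorem memLp_up {f : (Fin N → ℝ) → ℝ} (hf : MemLp f 2 volume) (u : Fin N → ℝ) :
    MemLp (up f u) 2 volume :=
  (memLp_shift hf _).sup (memLp_shift hf _)

theorem memLp_dn {f : (Fin N → ℝ) → ℝ} (hf : MemLp f 2 volume) (u : Fin N → ℝ) :
    MemLp (dn f u) 2 volume :=
  (memLp_shift hf _).inf (memLp_shift hf _)

theorem int_mul {f g : (Fin N → ℝ) → ℝ} (hf : MemLp f 2 volume) (hg : MemLp g 2 volume) :
    Integrable (fun x => f x * g x) volume :=
  hf.integrable_mul hg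

theorem wt_nonneg (f : (Fin N → ℝ) → ℝ) : 0 ≤ wt f :=
  integral_nonneg fun _ => sq_nonneg _

theorem wt_shift (f : (Fin N → ℝ) → ℝ) (a : Fin N → ℝ) : ∫ x, f (x + a) ^ 2 = wt f :=
  integral_add_right_eq_self (fun x => f x ^ 2) a

theorem wt_up_add_dn {f : (Fin N → ℝ) → ℝ} (hf : MemLp f 2 volume) (u : Fin N → ℝ) :
    wt (up f u) + wt (dn f u) = 2 * wt f := by
  unfold wt
  rw [← integral_add (memLp_up hf u).integrable_sq (memLp_dn hf u).integrable_sq]
  have h : ∀ x, up f u x ^ 2 + dn f u x ^ 2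
      = f (x + (3 : ℝ) • u) ^ 2 + f (x + -((3 : ℝ) • u)) ^ 2 := by
    intro x
    unfold up dn
    rcases le_total (f (x + (3 : ℝ) • u)) (f (x + -((3 : ℝ) • u))) with h | h
    · rw [max_eq_right h, min_eq_left h]; ring
    · rw [max_eq_left h, min_eq_right h]
  simp_rw [h]
  rw [integral_add (memLp_shift hf _).integrable_sq (memLp_shift hf _).integrable_sq, wt_shift,
    wt_shift]
  unfold wt
  ring

theorem rearr (a b c d : ℝ) : a * c + b * d ≤ max a b * max c d + min a b * min c d := by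
  rcases le_total a b with h | h <;> rcases le_total c d with h' | h'
  · rw [max_eq_right h, min_eq_left h, max_eq_right h', min_eq_left h']; linarith
  · rw [max_eq_right h, min_eq_left h, max_eq_left h', min_eq_right h']; nlinarith
  · rw [max_eq_left h, min_eq_right h, max_eq_right h', min_eq_left h']; nlinarith
  · rw [max_eq_left h, min_eq_right h, max_eq_left h', min_eq_right h']

theorem aff_split {f : (Fin N → ℝ) → ℝ} (hf : MemLp f 2 volume) (u v : Fin N → ℝ) :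
    2 * aff f v ≤ aff (up f u) v + aff (dn f u) v := by
  unfold aff
  rw [← integral_add (int_mul (memLp_shift (memLp_up hf u) _) (memLp_shift (memLp_up hf u) _))
    (int_mul (memLp_shift (memLp_dn hf u) _) (memLp_shift (memLp_dn hf u) _))]
  have key : ∀ a : Fin N → ℝ, ∫ x, f (x + (3 : ℝ) • v) * f (x + -((3 : ℝ) • v))
      = ∫ x, f (x + (3 : ℝ) • v + a) * f (x + -((3 : ℝ) • v) + a) := by
    intro a
    rw [← integral_add_right_eq_self
      (fun x => f (x + (3 : ℝ) • v) * f (x + -((3 : ℝ) • v))) a]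
    congr 1
    ext x
    congr 2 <;> abel
  have i1 : ∀ a : Fin N → ℝ,
      Integrable (fun x => f (x + (3 : ℝ) • v + a) * f (x + -((3 : ℝ) • v) + a)) volume :=
    fun a => int_mul (memLp_shift (memLp_shift hf a) _) (memLp_shift (memLp_shift hf a) _)
  rw [two_mul]
  nth_rewrite 1 [key ((3 : ℝ) • u)]
  rw [key (-((3 : ℝ) • u)), ← integral_add (i1 _) (i1 _)]
  refine integral_mono ((i1 _).add (i1 _))
    ((int_mul (memLp_shift (memLp_up hf u) _) (memLp_shift (memLp_up hf u) _)).add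
    (int_mul (memLp_shift (memLp_dn hf u) _) (memLp_shift (memLp_dn hf u) _))) fun x => ?_
  exact rearr _ _ _ _

theorem min_sq_ge {a b : ℝ} : 4.8 * (a * b) - 2 * (a ^ 2 + b ^ 2) ≤ min a b ^ 2 := by
  rcases le_total a b with h | h
  · rw [min_eq_left h]; nlinarith [sq_nonneg (a - 0.8 * b), sq_nonneg b]
  · rw [min_eq_right h]; nlinarith [sq_nonneg (b - 0.8 * a), sq_nonneg a]

theorem wt_dn_ge {f : (Fin N → ℝ) → ℝ} (hf : MemLp f 2 volume) (u : Fin N → ℝ) :
    4.8 * aff f u - 4 * wt f ≤ wt (dn f u) := by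
  have i1 := int_mul (memLp_shift hf ((3 : ℝ) • u)) (memLp_shift hf (-((3 : ℝ) • u)))
  have i2 := (memLp_shift hf ((3 : ℝ) • u)).integrable_sq
  have i3 := (memLp_shift hf (-((3 : ℝ) • u))).integrable_sq
  have i4 : Integrable (fun x => f (x + (3 : ℝ) • u) ^ 2 + f (x + -((3 : ℝ) • u)) ^ 2) volume :=
    i2.add i3
  have e : 4.8 * aff f u - 4 * wt f = ∫ x, (4.8 * (f (x + (3 : ℝ) • u) * f (x + -((3 : ℝ) • u)))
      - 2 * (f (x + (3 : ℝ) • u) ^ 2 + f (x + -((3 : ℝ) • u)) ^ 2)) := by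
    rw [integral_sub (i1.const_mul _) (i4.const_mul _), integral_const_mul,
      integral_const_mul, integral_add i2 i3, wt_shift, wt_shift]
    unfold aff
    ring
  rw [e]
  exact integral_mono ((i1.const_mul _).sub (i4.const_mul _))
    (memLp_dn hf u).integrable_sq fun x => min_sq_ge

theorem wt_dn_le_up {f : (Fin N → ℝ) → ℝ} (hf : MemLp f 2 volume) (h0 : ∀ x, 0 ≤ f x)
    (u : Fin N → ℝ) : wt (dn f u) ≤ wt (up f u) := by
  refine integral_mono (memLp_dn hf u).integrable_sq (memLp_up hf u).integrable_sq fun x => ?_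
  have h1 : 0 ≤ dn f u x := le_min (h0 _) (h0 _)
  have h2 : dn f u x ≤ up f u x := min_le_max
  exact pow_le_pow_left₀ h1 h2 2

theorem convex_upK {K : Set (Fin N → ℝ)} (hK : Convex ℝ K) (u : Fin N → ℝ) :
    Convex ℝ (upK K u) := by
  rintro x ⟨s, hs, hx⟩ y ⟨t, ht, hy⟩ a b ha hb hab
  refine ⟨a * s + b * t, ?_, ?_⟩
  · rw [abs_le] at *
    constructor <;> nlinarith [hs.1, hs.2, ht.1, ht.2]
  · have := hK hx hy ha hb hab
    convert this using 1
    module

theorem convex_dnK {K : Set (Fin N → ℝ)} (hK : Convex ℝ K) (u : Fin N → ℝ) :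
    Convex ℝ (dnK K u) := by
  rintro x ⟨hx, hx'⟩ y ⟨hy, hy'⟩ a b ha hb hab
  have hb' : b = 1 - a := by linarith
  constructor
  · have := hK hx hy ha hb hab
    convert this using 1
    rw [hb']
    module
  · have := hK hx' hy' ha hb hab
    convert this using 1
    rw [hb']
    module

theorem dnK_mem {K : Set (Fin N → ℝ)} (hK : Convex ℝ K) {u x : Fin N → ℝ} (hx : x ∈ dnK K u)
    {s : ℝ} (hs : |s| ≤ 3) : x + s • u ∈ K := by
  rw [abs_le] at hs
  have := hK hx.1 hx.2 (a := (3 + s) / 6) (b := (3 - s) / 6) (by linarith [hs.1])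
    (by linarith [hs.2]) (by ring)
  convert this using 1
  module

/-- The split family of amplitudes. -/
noncomputable def sψ {Ω : Type} (ψ : Ω → (Fin N → ℝ) → ℝ) (u : Fin N → ℝ) :
    Ω ⊕ Ω → (Fin N → ℝ) → ℝ :=
  Sum.elim (fun w => up (ψ w) u) (fun w => dn (ψ w) u)

/-- The split family of sets. -/
def sK {Ω : Type} (K : Ω → Set (Fin N → ℝ)) (u : Fin N → ℝ) : Ω ⊕ Ω → Set (Fin N → ℝ) :=
  Sum.elim (fun w => upK (K w) u) (fun w => dnK (K w) u)

theorem good_split {Ω : Type} {ψ : Ω → (Fin N → ℝ) → ℝ} {K : Ω → Set (Fin N → ℝ)}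
    (h : Good ψ K) (u : Fin N → ℝ) : Good (sψ ψ u) (sK K u) := by
  obtain ⟨h0, h1, h2, h3, h4⟩ := h
  refine ⟨?_, ?_, ?_, ?_, ?_⟩
  · rintro (w | w) x
    · exact le_max_of_le_left (h0 _ _)
    · exact le_min (h0 _ _) (h0 _ _)
  · rintro (w | w)
    · exact memLp_up (h1 w) u
    · exact memLp_dn (h1 w) u
  · rintro (w | w)
    · exact convex_upK (h2 w) u
    · exact convex_dnK (h2 w) u
  · rintro (w | w) x
    · rintro ⟨t, ht, hx⟩
      refine ⟨-t, by rwa [abs_neg], ?_⟩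
      have := h3 w _ hx
      convert this using 1
      module
    · rintro ⟨hx, hx'⟩
      constructor
      · have := h3 w _ hx'
        convert this using 1
        module
      · have := h3 w _ hx
        convert this using 1
        module
  · rintro (w | w) x hx
    · change max _ _ ≠ 0 at hx
      by_cases h5 : ψ w (x + (3 : ℝ) • u) = 0
      · have h6 : ψ w (x + -((3 : ℝ) • u)) ≠ 0 := by
          intro h6
          rw [h5, h6] at hx
          simp at hx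
        refine ⟨-3, by norm_num, ?_⟩
        have := h4 w _ h6
        convert this using 1
        module
      · exact ⟨3, by norm_num, h4 w _ h5⟩
    · change min _ _ ≠ 0 at hx
      constructor
      · refine h4 w _ fun h5 => hx ?_
        rw [h5]
        exact min_eq_left (h0 _ _)
      · refine h4 w _ fun h5 => hx ?_
        rw [h5]
        exact min_eq_right (h0 _ _)

theorem zero_mem_Cset {Ω : Type} [Fintype Ω] {ψ : Ω → (Fin N → ℝ) → ℝ}
    {K : Ω → Set (Fin N → ℝ)} (h : Good ψ K) : (0 : Fin N → ℝ) ∈ Cset ψ K := by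
  obtain ⟨_, _, h2, h3, h4⟩ := h
  refine ⟨fun _ => 0, fun w => ?_, by simp⟩
  by_cases hw : ∀ x, ψ w x = 0
  · left
    simp [wt, hw]
  · right
    push Not at hw
    obtain ⟨x, hx⟩ := hw
    have := h2 w (h4 w x hx) (h3 w x (h4 w x hx)) (a := 1 / 2) (b := 1 / 2) (by norm_num)
      (by norm_num) (by norm_num)
    convert this using 1
    module

theorem sum_wt_split {Ω : Type} [Fintype Ω] {ψ : Ω → (Fin N → ℝ) → ℝ}
    {K : Ω → Set (Fin N → ℝ)} (h : Good ψ K) (u : Fin N → ℝ) :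
    ∑ w, wt (sψ ψ u w) = 2 * ∑ w, wt (ψ w) := by
  rw [Fintype.sum_sum_type, ← Finset.sum_add_distrib, Finset.mul_sum]
  exact Finset.sum_congr rfl fun w _ => wt_up_add_dn (h.2.1 w) u

theorem sum_aff_split {Ω : Type} [Fintype Ω] {ψ : Ω → (Fin N → ℝ) → ℝ}
    {K : Ω → Set (Fin N → ℝ)} (h : Good ψ K) (u v : Fin N → ℝ) :
    2 * ∑ w, aff (ψ w) v ≤ ∑ w, aff (sψ ψ u w) v := by
  rw [Fintype.sum_sum_type, ← Finset.sum_add_distrib, Finset.mul_sum]
  exact Finset.sum_le_sum fun w _ => aff_split (h.2.1 w) u v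

theorem choose_sign {c b φ : ℝ} (hb : 0.35 ≤ b) (hc : |c| ≤ 3 * (1 - b)) (hφ : |φ| ≤ 1 / 10) :
    ∃ e : ℤ, (e = 1 ∨ e = -1) ∧ ∃ s : ℝ, |s| ≤ 3 ∧ (e : ℝ) + φ = c + s * b := by
  have hb0 : 0 < b := by linarith
  rw [abs_le] at hc hφ
  by_cases h : 1 + φ ≤ c + 3 * b
  · refine ⟨1, Or.inl rfl, (1 + φ - c) / b, ?_, ?_⟩
    · rw [abs_le]
      constructor
      · rw [le_div_iff₀ hb0]; linarith [hc.2, hφ.1]
      · rw [div_le_iff₀ hb0]; linarith
    · field_simp
      push_cast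
      ring
  · refine ⟨-1, Or.inr rfl, (-1 + φ - c) / b, ?_, ?_⟩
    · rw [abs_le]
      constructor
      · rw [le_div_iff₀ hb0]; linarith
      · rw [div_le_iff₀ hb0]; linarith [hc.1, hφ.2]
    · field_simp
      push_cast
      ring

theorem pullback {Ω : Type} [Fintype Ω] {ψ : Ω → (Fin N → ℝ) → ℝ}
    {K : Ω → Set (Fin N → ℝ)} (h : Good ψ K) (u : Fin N → ℝ) (hM : 0 < ∑ w, wt (ψ w))
    (ha : 0.98 * ∑ w, wt (ψ w) ≤ ∑ w, aff (ψ w) u) {z : Fin N → ℝ}
    (hz : z ∈ Cset (sψ ψ u) (sK K u)) {φ : ℝ} (hφ : |φ| ≤ 1 / 10) :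
    ∃ e : ℤ, (e = 1 ∨ e = -1) ∧ z + ((e : ℝ) + φ) • u ∈ Cset ψ K := by
  classical
  obtain ⟨a, ha1, ha2⟩ := hz
  rw [sum_wt_split h u, Fintype.sum_sum_type] at ha2
  set M := ∑ w, wt (ψ w) with hMdef
  set p0 : Ω → ℝ := fun w => wt (up (ψ w) u) with hp0
  set p1 : Ω → ℝ := fun w => wt (dn (ψ w) u) with hp1
  have hp : ∀ w, p0 w + p1 w = 2 * wt (ψ w) := fun w => wt_up_add_dn (h.2.1 w) u
  have hp0n : ∀ w, 0 ≤ p0 w := fun w => wt_nonneg _
  have hp1n : ∀ w, 0 ≤ p1 w := fun w => wt_nonneg _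
  have hple : ∀ w, p1 w ≤ p0 w := fun w => wt_dn_le_up (h.2.1 w) (h.1 w) u
  have ht : ∀ w, ∃ t : ℝ, |t| ≤ 3 ∧ (p0 w = 0 ∨ a (Sum.inl w) + t • u ∈ K w) := by
    intro w
    rcases ha1 (Sum.inl w) with h1 | ⟨t, h1, h2⟩
    · exact ⟨0, by norm_num, Or.inl h1⟩
    · exact ⟨t, h1, Or.inr h2⟩
  choose t ht1 ht2 using ht
  have hsum : ∑ w, p0 w + ∑ w, p1 w = 2 * M := by
    rw [← Finset.sum_add_distrib, hMdef, Finset.mul_sum]
    exact Finset.sum_congr rfl fun w _ => hp w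
  have hP1 : 4.8 * ∑ w, aff (ψ w) u - 4 * M ≤ ∑ w, p1 w := by
    rw [hMdef, Finset.mul_sum, Finset.mul_sum, ← Finset.sum_sub_distrib]
    exact Finset.sum_le_sum fun w _ => wt_dn_ge (h.2.1 w) u
  set b := (∑ w, p1 w) / (2 * M) with hb
  set c := (∑ w, p0 w * t w) / (2 * M) with hc
  have hb1 : 0.35 ≤ b := by
    rw [hb, le_div_iff₀ (by positivity)]
    linarith
  have hc1 : |c| ≤ 3 * (1 - b) := by
    have h1 : |∑ w, p0 w * t w| ≤ 3 * ∑ w, p0 w := by
      refine (Finset.abs_sum_le_sum_abs _ _).trans ?_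
      rw [Finset.mul_sum]
      refine Finset.sum_le_sum fun w _ => ?_
      rw [abs_mul, abs_of_nonneg (hp0n w)]
      nlinarith [ht1 w, hp0n w]
    have h2 : 1 - b = (∑ w, p0 w) / (2 * M) := by
      rw [hb]
      field_simp
      linarith
    rw [hc, h2, abs_div, abs_of_pos (by positivity : 0 < 2 * M), ← mul_div_assoc]
    exact div_le_div_of_nonneg_right h1 (by positivity)
  obtain ⟨e, he, s, hs, hes⟩ := choose_sign hb1 hc1 hφ
  refine ⟨e, he, fun w => (2 * wt (ψ w))⁻¹ • (p0 w • (a (Sum.inl w) + t w • u)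
    + p1 w • (a (Sum.inr w) + s • u)), fun w => ?_, ?_⟩
  · by_cases hw : wt (ψ w) = 0
    · exact Or.inl hw
    right
    beta_reduce
    have hwpos : 0 < wt (ψ w) := lt_of_le_of_ne (wt_nonneg _) (Ne.symm hw)
    have hp0pos : p0 w ≠ 0 := by
      intro h0
      have := hp w
      have := hple w
      linarith
    have hk0 : a (Sum.inl w) + t w • u ∈ K w := (ht2 w).resolve_left hp0pos
    by_cases h1 : p1 w = 0
    · have h2 : p0 w = 2 * wt (ψ w) := by have := hp w; linarith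
      rw [h1, zero_smul, add_zero, h2, smul_smul, inv_mul_cancel₀ (by positivity), one_smul]
      exact hk0
    · have hk1 : a (Sum.inr w) + s • u ∈ K w :=
        dnK_mem (h.2.2.1 w) ((ha1 (Sum.inr w)).resolve_left h1) hs
      have hcv : Convex ℝ (K w) := h.2.2.1 w
      have := hcv hk0 hk1 (a := (2 * wt (ψ w))⁻¹ * p0 w) (b := (2 * wt (ψ w))⁻¹ * p1 w)
        (mul_nonneg (by positivity) (hp0n w)) (mul_nonneg (by positivity) (hp1n w))
        (by rw [← mul_add, hp w, inv_mul_cancel₀ (by positivity)])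
      convert this using 1
      module
  · have e1 : ∀ w, wt (ψ w) • ((2 * wt (ψ w))⁻¹ • (p0 w • (a (Sum.inl w) + t w • u)
        + p1 w • (a (Sum.inr w) + s • u))) = (1 / 2 : ℝ) • (p0 w • a (Sum.inl w)
          + p1 w • a (Sum.inr w) + (p0 w * t w + p1 w * s) • u) := by
      intro w
      by_cases hw : wt (ψ w) = 0
      · have h0 : p0 w = 0 := by have := hp w; have := hp0n w; have := hp1n w; linarith
        have h1 : p1 w = 0 := by have := hp w; have := hp0n w; have := hp1n w; linarith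
        rw [hw, h0, h1]
        simp
      · rw [smul_smul]
        have : wt (ψ w) * (2 * wt (ψ w))⁻¹ = 1 / 2 := by field_simp
        rw [this]
        module
    simp_rw [e1]
    rw [← Finset.smul_sum, Finset.sum_add_distrib, Finset.sum_add_distrib, ← Finset.sum_smul,
      Finset.sum_add_distrib, ← Finset.sum_mul]
    have ha3 : (∑ w, p0 w • a (Sum.inl w)) + ∑ w, p1 w • a (Sum.inr w) = (2 * M) • z := ha2.symm
    rw [ha3, hes, ← hMdef]
    have e2 : ∑ w, p0 w * t w = c * (2 * M) := by rw [hc]; field_simp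
    have e3 : ∑ w, p1 w = b * (2 * M) := by rw [hb]; field_simp
    rw [e2, e3]
    module

/-- The splitting lemma with adaptive offsets. -/
theorem split_main (u : ℕ → Fin N → ℝ) (φ : ℕ → (Fin N → ℝ) → ℝ)
    (hφ : ∀ k j, k ≤ j → ∀ (z : Fin N → ℝ) (t : ℝ), φ k (z + t • u j) = φ k z) (n : ℕ) :
    ∀ (Ω : Type) [Fintype Ω] (ψ : Ω → (Fin N → ℝ) → ℝ) (K : Ω → Set (Fin N → ℝ)),
      Good ψ K → 0 < ∑ w, wt (ψ w) →
      (∀ k < n, 0.98 * ∑ w, wt (ψ w) ≤ ∑ w, aff (ψ w) (u k)) →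
      (∀ k < n, ∀ z ∈ Cset ψ K, |φ k z| ≤ 1 / 10) →
      ∃ (z : ℕ → Fin N → ℝ) (ε : ℕ → ℤ), z 0 = 0 ∧
        (∀ k < n, (ε k = 1 ∨ ε k = -1) ∧ z (k + 1) = z k + ((ε k : ℝ) + φ k (z k)) • u k) ∧
        z n ∈ Cset ψ K := by
  induction n with
  | zero =>
    intro Ω _ ψ K h _ _ _
    exact ⟨fun _ => 0, fun _ => 1, rfl, fun k hk => absurd hk (Nat.not_lt_zero k),
      zero_mem_Cset h⟩
  | succ n ih =>
    intro Ω _ ψ K h hM ha hb
    have hφC : ∀ k ≤ n, ∀ z ∈ Cset (sψ ψ (u n)) (sK K (u n)), |φ k z| ≤ 1 / 10 := by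
      intro k hk z hz
      obtain ⟨e, -, he⟩ := pullback h (u n) hM (ha n (Nat.lt_succ_self n)) hz (φ := 0)
        (by norm_num)
      rw [← hφ k n hk z ((e : ℝ) + 0)]
      exact hb k (by omega) _ he
    obtain ⟨z, ε, hz0, hz1, hz2⟩ := ih (Ω ⊕ Ω) (sψ ψ (u n)) (sK K (u n)) (good_split h (u n))
      (by rw [sum_wt_split h]; positivity)
      (fun k hk => by
        rw [sum_wt_split h]
        have h1 := sum_aff_split h (u n) (u k)
        have h2 := ha k (by omega)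
        linarith)
      (fun k hk => hφC k hk.le)
    obtain ⟨e, he, he2⟩ := pullback h (u n) hM (ha n (Nat.lt_succ_self n)) hz2
      (hφC n le_rfl _ hz2)
    refine ⟨Function.update z (n + 1) (z n + ((e : ℝ) + φ n (z n)) • u n),
      Function.update ε n e, ?_, ?_, ?_⟩
    · rw [Function.update_of_ne (by omega)]
      exact hz0
    · intro k hk
      rcases Nat.lt_succ_iff_lt_or_eq.1 hk with hk | rfl
      · rw [Function.update_of_ne (by omega), Function.update_of_ne (by omega),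
          Function.update_of_ne (by omega)]
        exact hz1 k hk
      · rw [Function.update_self, Function.update_self, Function.update_of_ne (by omega)]
        exact ⟨he, rfl⟩
    · rw [Function.update_self]
      exact he2

/-- The splitting lemma for a single amplitude. -/
theorem split_single (u : ℕ → Fin N → ℝ) (φ : ℕ → (Fin N → ℝ) → ℝ)
    (hφ : ∀ k j, k ≤ j → ∀ (z : Fin N → ℝ) (t : ℝ), φ k (z + t • u j) = φ k z) (n : ℕ)
    (ψ : (Fin N → ℝ) → ℝ) (K : Set (Fin N → ℝ)) (h0 : ∀ x, 0 ≤ ψ x) (h1 : MemLp ψ 2 volume)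
    (h2 : Convex ℝ K) (h3 : ∀ x ∈ K, -x ∈ K) (h4 : ∀ x, ψ x ≠ 0 → x ∈ K) (hM : 0 < wt ψ)
    (ha : ∀ k < n, 0.98 * wt ψ ≤ aff ψ (u k)) (hb : ∀ k < n, ∀ z ∈ K, |φ k z| ≤ 1 / 10) :
    ∃ (z : ℕ → Fin N → ℝ) (ε : ℕ → ℤ), z 0 = 0 ∧
      (∀ k < n, (ε k = 1 ∨ ε k = -1) ∧ z (k + 1) = z k + ((ε k : ℝ) + φ k (z k)) • u k) ∧
      z n ∈ K := by
  have hC : ∀ z ∈ Cset (fun _ : Unit => ψ) (fun _ => K), z ∈ K := by
    rintro z ⟨a, ha1, ha2⟩
    simp only [Finset.univ_unique, Finset.sum_singleton] at ha2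
    have h5 : z = a default := smul_right_injective _ hM.ne' ha2
    rw [h5]
    exact (ha1 default).resolve_left hM.ne'
  obtain ⟨z, ε, hz0, hz1, hz2⟩ := split_main u φ hφ n Unit (fun _ => ψ) (fun _ => K)
    ⟨fun _ => h0, fun _ => h1, fun _ => h2, fun _ => h3, fun _ => h4⟩ (by simpa using hM)
    (fun k hk => by simpa using ha k hk) (fun k hk z hz => hb k hk z (hC z hz))
  exact ⟨z, ε, hz0, hz1, hC _ hz2⟩

end Crest.Agent.R239
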