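import Mathlib
import Crest.Agent.Lib.PL.PrekopaLeindler
import Crest.Agent.R239.Split

/-!
# Gaussian amplitudes cut off by quadratic constraints

Author: helper42.
-/

set_option autoImplicit false
open MeasureTheory Real

namespace Crest.Agent.R239

variable {N : ℕ}

/-- The linear form with coefficient vector `m`. -/
def lin (m x : Fin N → ℝ) : ℝ := ∑ i, m i * x i

/-- The squared Euclidean norm. -/
def nsq (x : Fin N → ℝ) : ℝ := ∑ i, x i ^ 2

theorem lin_add (m x y : Fin N → ℝ) : lin m (x + y) = lin m x + lin m y := by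
  simp [lin, mul_add, Finset.sum_add_distrib]

theorem lin_smul (m x : Fin N → ℝ) (t : ℝ) : lin m (t • x) = t * lin m x := by
  simp only [lin, Pi.smul_apply, smul_eq_mul, Finset.mul_sum]
  exact Finset.sum_congr rfl fun i _ => by ring

theorem lin_neg (m x : Fin N → ℝ) : lin m (-x) = -lin m x := by
  simp [lin]

theorem lin_single (m : Fin N → ℝ) (i : Fin N) : lin m (Pi.single i 1) = m i := by
  simp [lin, Pi.single_apply]

theorem continuous_lin (m : Fin N → ℝ) : Continuous (lin m) := by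
  unfold lin; fun_prop

theorem continuous_nsq : Continuous (nsq : (Fin N → ℝ) → ℝ) := by
  unfold nsq; fun_prop

theorem nsq_nonneg (x : Fin N → ℝ) : 0 ≤ nsq x := Finset.sum_nonneg fun _ _ => sq_nonneg _

theorem nsq_neg (x : Fin N → ℝ) : nsq (-x) = nsq x := by simp [nsq]

theorem integrable_gauss {b : ℝ} (hb : 0 < b) :
    Integrable (fun x : Fin N → ℝ => exp (-b * nsq x)) volume := by
  have h := Integrable.fintype_prod (ι := Fin N) (μ := fun _ => (volume : Measure ℝ))
    (f := fun _ (t : ℝ) => exp (-b * t ^ 2)) (fun _ => integrable_exp_neg_mul_sq hb)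
  have e : (fun x : Fin N → ℝ => exp (-b * nsq x))
      = fun x : Fin N → ℝ => ∏ i, exp (-b * x i ^ 2) := by
    ext x
    rw [← Real.exp_sum, nsq, Finset.mul_sum]
  rw [e]
  exact h

/-- The Gaussian weight. -/
noncomputable def gam (x : Fin N → ℝ) : ℝ := exp (-4 * nsq x)

theorem gam_pos (x : Fin N → ℝ) : 0 < gam x := exp_pos _

theorem continuous_gam : Continuous (gam : (Fin N → ℝ) → ℝ) := by
  unfold gam
  have := continuous_nsq (N := N)
  fun_prop

/-- Admissible perturbations: even, midpoint log-concave, with values in `[0,1]`. -/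
def Adm (g : (Fin N → ℝ) → ℝ) : Prop :=
  Continuous g ∧ (∀ x, 0 ≤ g x) ∧ (∀ x, g x ≤ 1) ∧ (∀ x, g (-x) = g x) ∧
    ∀ x y, g x * g y ≤ g ((1 / 2 : ℝ) • (x + y)) ^ 2

theorem adm_one : Adm (fun _ : Fin N → ℝ => (1 : ℝ)) :=
  ⟨continuous_const, fun _ => zero_le_one, fun _ => le_rfl, fun _ => rfl, fun _ _ => by simp⟩

theorem Adm.mul {f g : (Fin N → ℝ) → ℝ} (hf : Adm f) (hg : Adm g) : Adm (fun x => f x * g x) := by
  obtain ⟨f0, f1, f2, f3, f4⟩ := hf
  obtain ⟨g0, g1, g2, g3, g4⟩ := hg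
  refine ⟨f0.mul g0, fun x => mul_nonneg (f1 x) (g1 x),
    fun x => mul_le_one₀ (f2 x) (g1 x) (g2 x), fun x => by beta_reduce; rw [f3, g3],
    fun x y => ?_⟩
  calc f x * g x * (f y * g y) = (f x * f y) * (g x * g y) := by ring
    _ ≤ f ((1 / 2 : ℝ) • (x + y)) ^ 2 * g ((1 / 2 : ℝ) • (x + y)) ^ 2 :=
      mul_le_mul (f4 x y) (g4 x y) (mul_nonneg (g1 x) (g1 y)) (sq_nonneg _)
    _ = _ := by ring

theorem Adm.shift {f : (Fin N → ℝ) → ℝ} (hf : Adm f) (v : Fin N → ℝ) :
    Adm (fun x => f (x + v) * f (x + -v)) := by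
  obtain ⟨f0, f1, f2, f3, f4⟩ := hf
  refine ⟨by fun_prop, fun x => mul_nonneg (f1 _) (f1 _),
    fun x => mul_le_one₀ (f2 _) (f1 _) (f2 _), fun x => ?_, fun x y => ?_⟩
  · have e1 : -x + v = -(x + -v) := by abel
    have e2 : -x + -v = -(x + v) := by abel
    beta_reduce
    rw [e1, e2, f3, f3, mul_comm]
  · have e1 : (1 / 2 : ℝ) • (x + y) + v = (1 / 2 : ℝ) • (x + v + (y + v)) := by module
    have e2 : (1 / 2 : ℝ) • (x + y) + -v = (1 / 2 : ℝ) • (x + -v + (y + -v)) := by module
    calc f (x + v) * f (x + -v) * (f (y + v) * f (y + -v))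
        = (f (x + v) * f (y + v)) * (f (x + -v) * f (y + -v)) := by ring
      _ ≤ f ((1 / 2 : ℝ) • (x + v + (y + v))) ^ 2 * f ((1 / 2 : ℝ) • (x + -v + (y + -v))) ^ 2 :=
        mul_le_mul (f4 _ _) (f4 _ _) (mul_nonneg (f1 _) (f1 _)) (sq_nonneg _)
      _ = _ := by beta_reduce; rw [e1, e2]; ring

theorem lin_le (θ x : Fin N → ℝ) : lin θ x ≤ nsq θ / 8 + 2 * nsq x := by
  unfold lin nsq
  rw [Finset.sum_div, Finset.mul_sum, ← Finset.sum_add_distrib]
  exact Finset.sum_le_sum fun i _ => by nlinarith [sq_nonneg (θ i - 4 * x i)]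

theorem Adm.int_exp {g : (Fin N → ℝ) → ℝ} (hg : Adm g) (θ : Fin N → ℝ) :
    Integrable (fun x => gam x * g x * exp (lin θ x)) volume := by
  have hc : Continuous (fun x => gam x * g x * exp (lin θ x)) :=
    (continuous_gam.mul hg.1).mul (continuous_exp.comp (continuous_lin θ))
  refine ((integrable_gauss (N := N) (b := 2) two_pos).const_mul (exp (nsq θ / 8))).mono'
    hc.aestronglyMeasurable (Filter.Eventually.of_forall fun x => ?_)
  rw [Real.norm_eq_abs, abs_of_nonneg
    (mul_nonneg (mul_nonneg (gam_pos x).le (hg.2.1 x)) (exp_pos _).le)]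
  calc gam x * g x * exp (lin θ x) ≤ gam x * 1 * exp (lin θ x) := by
        have := hg.2.2.1 x
        have := gam_pos x
        gcongr
    _ = exp (-4 * nsq x + lin θ x) := by rw [mul_one, gam, exp_add]
    _ ≤ exp (nsq θ / 8 + -2 * nsq x) := by
        apply exp_le_exp.2
        have := lin_le θ x
        linarith
    _ = _ := by rw [exp_add]

theorem Adm.int {g : (Fin N → ℝ) → ℝ} (hg : Adm g) :
    Integrable (fun x => gam x * g x) volume := by
  have := hg.int_exp 0
  simpa [lin] using this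

theorem real_PL {f g h : (Fin N → ℝ) → ℝ} (hf : Continuous f) (hg : Continuous g)
    (hh : Continuous h) (f0 : ∀ x, 0 ≤ f x) (g0 : ∀ x, 0 ≤ g x) (h0 : ∀ x, 0 ≤ h x)
    (fi : Integrable f volume) (gi : Integrable g volume) (hi : Integrable h volume)
    (H : ∀ x y, f x * g y ≤ h ((1 / 2 : ℝ) • (x + y)) ^ 2) :
    (∫ x, f x) * (∫ x, g x) ≤ (∫ x, h x) ^ 2 := by
  have key := Crest.Agent.Lib.PL.hasPL_pi N (fun x => ENNReal.ofReal (f x))
    (fun x => ENNReal.ofReal (g x)) (fun x => ENNReal.ofReal (h x))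
    hf.measurable.ennreal_ofReal hg.measurable.ennreal_ofReal hh.measurable.ennreal_ofReal
    (fun x y => by
      rw [← ENNReal.ofReal_mul (f0 x), ← ENNReal.ofReal_pow (h0 _)]
      exact ENNReal.ofReal_le_ofReal (H x y))
  rw [← ofReal_integral_eq_lintegral_ofReal fi (Filter.Eventually.of_forall f0),
    ← ofReal_integral_eq_lintegral_ofReal gi (Filter.Eventually.of_forall g0),
    ← ofReal_integral_eq_lintegral_ofReal hi (Filter.Eventually.of_forall h0),
    ← ENNReal.ofReal_mul (integral_nonneg f0), ← ENNReal.ofReal_pow (integral_nonneg h0)] at key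
  exact (ENNReal.ofReal_le_ofReal_iff (sq_nonneg _)).1 key

theorem nsq_mid (x y : Fin N → ℝ) :
    nsq x + nsq y = 2 * nsq ((1 / 2 : ℝ) • (x + y)) + nsq (x + -y) / 2 := by
  unfold nsq
  rw [Finset.mul_sum, Finset.sum_div, ← Finset.sum_add_distrib, ← Finset.sum_add_distrib]
  refine Finset.sum_congr rfl fun i _ => ?_
  simp only [Pi.smul_apply, Pi.add_apply, Pi.neg_apply, smul_eq_mul]
  ring

theorem Adm.int_exp_neg {g : (Fin N → ℝ) → ℝ} (hg : Adm g) (θ : Fin N → ℝ) :
    ∫ x, gam x * g x * exp (-lin θ x) = ∫ x, gam x * g x * exp (lin θ x) := by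
  rw [← integral_neg_eq_self (fun x => gam x * g x * exp (lin θ x)) volume]
  congr 1
  ext x
  rw [lin_neg, hg.2.2.2.1, gam, gam, nsq_neg]

theorem Adm.int_exp_neg' {g : (Fin N → ℝ) → ℝ} (hg : Adm g) (θ : Fin N → ℝ) :
    Integrable (fun x => gam x * g x * exp (-lin θ x)) volume := by
  have := hg.int_exp (-θ)
  simpa [lin] using this

theorem Adm.mgf {g : (Fin N → ℝ) → ℝ} (hg : Adm g) (θ : Fin N → ℝ) :
    ∫ x, gam x * g x * exp (lin θ x) ≤ exp (nsq θ / 16) * ∫ x, gam x * g x := by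
  have hc : Continuous (fun x => gam x * g x) := continuous_gam.mul hg.1
  have h0 : ∀ x, 0 ≤ gam x * g x := fun x => mul_nonneg (gam_pos x).le (hg.2.1 x)
  have key := real_PL (f := fun x => gam x * g x * exp (lin θ x))
    (g := fun x => gam x * g x * exp (-lin θ x)) (h := fun x => exp (nsq θ / 16) * (gam x * g x))
    (hc.mul (continuous_exp.comp (continuous_lin θ)))
    (hc.mul (continuous_exp.comp (continuous_lin θ).neg)) (continuous_const.mul hc)
    (fun x => mul_nonneg (h0 x) (exp_pos _).le) (fun x => mul_nonneg (h0 x) (exp_pos _).le)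
    (fun x => mul_nonneg (exp_pos _).le (h0 x)) (hg.int_exp θ) (hg.int_exp_neg' θ)
    (hg.int.const_mul _) (fun x y => by
      have e1 : gam x * g x * exp (lin θ x) * (gam y * g y * exp (-lin θ y))
          = exp (-4 * nsq x + lin θ x + (-4 * nsq y + -lin θ y)) * (g x * g y) := by
        simp only [gam, exp_add]
        ring
      have e2 : (exp (nsq θ / 16) * (gam ((1 / 2 : ℝ) • (x + y)) * g ((1 / 2 : ℝ) • (x + y)))) ^ 2
          = exp (nsq θ / 16 + nsq θ / 16 + (-4 * nsq ((1 / 2 : ℝ) • (x + y))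
            + -4 * nsq ((1 / 2 : ℝ) • (x + y)))) * g ((1 / 2 : ℝ) • (x + y)) ^ 2 := by
        simp only [gam, exp_add]
        ring
      rw [e1, e2]
      refine mul_le_mul (exp_le_exp.2 ?_) (hg.2.2.2.2 x y) (mul_nonneg (hg.2.1 x) (hg.2.1 y))
        (exp_pos _).le
      have h1 := lin_le θ (x + -y)
      rw [lin_add, lin_neg] at h1
      have h2 := nsq_mid x y
      linarith)
  rw [hg.int_exp_neg, integral_const_mul, ← sq] at key
  exact (pow_le_pow_iff_left₀ (integral_nonneg fun x => mul_nonneg (h0 x) (exp_pos _).le)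
    (mul_nonneg (exp_pos _).le (integral_nonneg h0)) two_ne_zero).1 key

theorem two_add_sq_le (y : ℝ) : 2 + y ^ 2 ≤ exp y + exp (-y) := by
  have h1 : exp y + exp (-y) = 2 * cosh (2 * (y / 2)) := by
    rw [Real.cosh_eq]
    have : 2 * (y / 2) = y := by ring
    rw [this]
    ring
  have h2 : |y / 2| ≤ |sinh (y / 2)| := by
    rw [Real.abs_sinh]
    exact Real.self_le_sinh_iff.2 (abs_nonneg _)
  have h3 := sq_le_sq.2 h2
  rw [h1, Real.cosh_two_mul, Real.cosh_sq]
  nlinarith

theorem Adm.int_sq {g : (Fin N → ℝ) → ℝ} (hg : Adm g) (m : Fin N → ℝ) :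
    Integrable (fun x => gam x * g x * lin m x ^ 2) volume := by
  have hc : Continuous (fun x => gam x * g x * lin m x ^ 2) :=
    (continuous_gam.mul hg.1).mul ((continuous_lin m).pow 2)
  refine ((hg.int_exp m).add (hg.int_exp_neg' m)).mono'
    hc.aestronglyMeasurable (Filter.Eventually.of_forall fun x => ?_)
  have h0 : 0 ≤ gam x * g x := mul_nonneg (gam_pos x).le (hg.2.1 x)
  rw [Real.norm_eq_abs, abs_of_nonneg (mul_nonneg h0 (sq_nonneg _))]
  have := two_add_sq_le (lin m x)
  simp only [Pi.add_apply]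
  nlinarith

theorem Adm.second {g : (Fin N → ℝ) → ℝ} (hg : Adm g) (m : Fin N → ℝ) :
    ∫ x, gam x * g x * lin m x ^ 2 ≤ nsq m / 4 * ∫ x, gam x * g x := by
  have h0 : ∀ x, 0 ≤ gam x * g x := fun x => mul_nonneg (gam_pos x).le (hg.2.1 x)
  have hI : 0 ≤ ∫ x, gam x * g x := integral_nonneg h0
  rcases (nsq_nonneg m).eq_or_lt with hm | hm
  · have hm0 : ∀ i, m i = 0 := by
      intro i
      have := (Finset.sum_eq_zero_iff_of_nonneg (fun i _ => sq_nonneg (m i))).1 hm.symm i
        (Finset.mem_univ i)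
      exact pow_eq_zero_iff two_ne_zero |>.1 this
    simp [lin, hm0, ← hm]
  set t := 4 / √(nsq m) with ht
  have ht2 : t ^ 2 * nsq m = 16 := by
    rw [ht, div_pow, Real.sq_sqrt hm.le]
    field_simp
    norm_num
  have hθ : nsq (t • m) / 16 = 1 := by
    have : nsq (t • m) = t ^ 2 * nsq m := by
      simp only [nsq, Pi.smul_apply, smul_eq_mul, Finset.mul_sum, mul_pow]
    rw [this, ht2]
    norm_num
  have hl : ∀ x, lin (t • m) x = t * lin m x := by
    intro x
    simp only [lin, Pi.smul_apply, smul_eq_mul, Finset.mul_sum, mul_assoc]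
  have h1 := hg.mgf (t • m)
  rw [hθ] at h1
  have h2 := hg.int_exp_neg (t • m)
  have i1 : Integrable (fun x => 2 * (gam x * g x)) volume := hg.int.const_mul _
  have i2 : Integrable (fun x => t ^ 2 * (gam x * g x * lin m x ^ 2)) volume :=
    (hg.int_sq m).const_mul _
  have h3 : ∫ x, (2 * (gam x * g x) + t ^ 2 * (gam x * g x * lin m x ^ 2))
      ≤ ∫ x, (gam x * g x * exp (lin (t • m) x) + gam x * g x * exp (-lin (t • m) x)) := by
    refine integral_mono (i1.add i2) ((hg.int_exp _).add (hg.int_exp_neg' _)) fun x => ?_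
    have h4 := two_add_sq_le (lin (t • m) x)
    have h5 := mul_le_mul_of_nonneg_left h4 (h0 x)
    have h6 : lin (t • m) x ^ 2 = t ^ 2 * lin m x ^ 2 := by rw [hl]; ring
    rw [h6] at h5
    simp only
    linarith
  rw [integral_add i1 i2, integral_add (hg.int_exp _) (hg.int_exp_neg' _), integral_const_mul,
    integral_const_mul, h2] at h3
  have h7 : exp 1 * ∫ x, gam x * g x ≤ 3 * ∫ x, gam x * g x :=
    mul_le_mul_of_nonneg_right Real.exp_one_lt_three.le hI
  have h8 : t ^ 2 * ∫ x, gam x * g x * lin m x ^ 2 ≤ 4 * ∫ x, gam x * g x := by linarith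
  have h9 := mul_le_mul_of_nonneg_left h8 hm.le
  have h10 : nsq m * (t ^ 2 * ∫ x, gam x * g x * lin m x ^ 2)
      = 16 * ∫ x, gam x * g x * lin m x ^ 2 := by
    rw [← mul_assoc, mul_comm (nsq m), ht2]
  rw [h10] at h9
  linarith

/-- A quadratic constraint `∑ a ∈ A, (M a ⬝ x)^2 ≤ β`, with a bound `W` for the trace. -/
structure Con (N : ℕ) : Type 1 where
  ι : Type
  A : Finset ι
  M : ι → Fin N → ℝ
  W : ℝ
  β : ℝ

namespace Con

/-- The quadratic form of a constraint. -/
def q (c : Con N) (x : Fin N → ℝ) : ℝ := ∑ a ∈ c.A, lin (c.M a) x ^ 2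

/-- The squared column norm. -/
def col (c : Con N) (i : Fin N) : ℝ := ∑ a ∈ c.A, c.M a i ^ 2

def Ok (c : Con N) : Prop := ∑ a ∈ c.A, nsq (c.M a) ≤ c.W ∧ c.W ≤ c.β ∧ 0 < c.β

/-- The load a constraint puts on a coordinate. -/
noncomputable def load (c : Con N) (i : Fin N) : ℝ := c.col i * c.W / c.β ^ 2

/-- The cutoff function of a constraint. -/
noncomputable def chi (c : Con N) (x : Fin N → ℝ) : ℝ := max 0 (1 - (c.q x / c.β) ^ 2)

theorem q_nonneg (c : Con N) (x : Fin N → ℝ) : 0 ≤ c.q x :=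
  Finset.sum_nonneg fun _ _ => sq_nonneg _

theorem q_neg (c : Con N) (x : Fin N → ℝ) : c.q (-x) = c.q x := by
  simp [q, lin_neg]

theorem continuous_q (c : Con N) : Continuous c.q := by
  unfold q
  exact continuous_finsetSum _ fun a _ => (continuous_lin _).pow 2

theorem q_convex (c : Con N) (x y : Fin N → ℝ) {a b : ℝ} (ha : 0 ≤ a) (hb : 0 ≤ b)
    (hab : a + b = 1) : c.q (a • x + b • y) ≤ a * c.q x + b * c.q y := by
  unfold q
  rw [Finset.mul_sum, Finset.mul_sum, ← Finset.sum_add_distrib]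
  refine Finset.sum_le_sum fun k _ => ?_
  rw [lin_add, lin_smul, lin_smul]
  have hb' : b = 1 - a := by linarith
  have := mul_nonneg (mul_nonneg ha hb) (sq_nonneg (lin (c.M k) x - lin (c.M k) y))
  rw [hb'] at this ⊢
  nlinarith

theorem col_nonneg (c : Con N) (i : Fin N) : 0 ≤ c.col i :=
  Finset.sum_nonneg fun _ _ => sq_nonneg _

theorem col_le {c : Con N} (hc : c.Ok) (i : Fin N) : c.col i ≤ c.W :=
  le_trans (Finset.sum_le_sum fun a _ => Finset.single_le_sum (f := fun i => c.M a i ^ 2)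
    (fun _ _ => sq_nonneg _) (Finset.mem_univ i)) hc.1

theorem W_nonneg {c : Con N} (hc : c.Ok) : 0 ≤ c.W :=
  le_trans (Finset.sum_nonneg fun _ _ => nsq_nonneg _) hc.1

theorem load_nonneg {c : Con N} (hc : c.Ok) (i : Fin N) : 0 ≤ c.load i :=
  div_nonneg (mul_nonneg (c.col_nonneg i) (W_nonneg hc)) (sq_nonneg _)

theorem adm_chi {c : Con N} (hc : c.Ok) : Adm c.chi := by
  have hβ := hc.2.2
  refine ⟨?_, fun x => le_max_left _ _, fun x => max_le zero_le_one (by nlinarith [sq_nonneg (c.q x / c.β)]),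
    fun x => by rw [chi, chi, q_neg], fun x y => ?_⟩
  · unfold chi
    have := c.continuous_q
    fun_prop
  · have h1 := c.q_convex x y (a := 1 / 2) (b := 1 / 2) (by norm_num) (by norm_num) (by norm_num)
    rw [← smul_add] at h1
    unfold chi
    set a := c.q x / c.β with ha
    set b := c.q y / c.β with hb
    set m := c.q ((1 / 2 : ℝ) • (x + y)) / c.β with hm
    have hm0 : 0 ≤ m := div_nonneg (c.q_nonneg _) hβ.le
    have hm1 : m ≤ (a + b) / 2 := by
      rw [hm, ha, hb, div_le_iff₀ hβ]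
      field_simp
      linarith
    have hm2 : m ^ 2 ≤ (a ^ 2 + b ^ 2) / 2 := by nlinarith [sq_nonneg (a - b)]
    rcases le_total 0 (1 - a ^ 2) with h2 | h2
    · rcases le_total 0 (1 - b ^ 2) with h3 | h3
      · rw [max_eq_right h2, max_eq_right h3, max_eq_right (by linarith)]
        have h4 : ((1 - a ^ 2) + (1 - b ^ 2)) / 2 ≤ 1 - m ^ 2 := by linarith
        have h5 : (((1 - a ^ 2) + (1 - b ^ 2)) / 2) ^ 2 ≤ (1 - m ^ 2) ^ 2 :=
          pow_le_pow_left₀ (by linarith) h4 2
        nlinarith [sq_nonneg ((1 - a ^ 2) - (1 - b ^ 2))]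
      · rw [max_eq_left h3, mul_zero]
        exact sq_nonneg _
    · rw [max_eq_left h2, zero_mul]
      exact sq_nonneg _

theorem int_q {c : Con N} {g : (Fin N → ℝ) → ℝ} (hg : Adm g) :
    Integrable (fun x => gam x * g x * c.q x) volume := by
  unfold q
  simp_rw [Finset.mul_sum]
  exact integrable_finsetSum _ fun a _ => hg.int_sq _

theorem second_q {c : Con N} (hc : c.Ok) {g : (Fin N → ℝ) → ℝ} (hg : Adm g) :
    ∫ x, gam x * g x * c.q x ≤ c.W / 4 * ∫ x, gam x * g x := by
  have hI : 0 ≤ ∫ x, gam x * g x :=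
    integral_nonneg fun x => mul_nonneg (gam_pos x).le (hg.2.1 x)
  unfold q
  simp_rw [Finset.mul_sum]
  rw [integral_finsetSum _ fun a _ => hg.int_sq _]
  refine (Finset.sum_le_sum fun a _ => hg.second (c.M a)).trans ?_
  rw [← Finset.sum_mul, ← Finset.sum_div]
  have := hc.1
  gcongr

end Con

theorem cut_aux {a r D : ℝ} (ha : 0 ≤ a) (hD : 0 ≤ D) (hr : 0 ≤ r) (hp : r ^ 2 ≤ 4 * a * D) :
    max 0 (1 - a ^ 2) ^ 2 - max 0 (1 - (a + r + D) ^ 2) * max 0 (1 - (a - r + D) ^ 2)
      ≤ 32 * (a * D) + 8 * D ^ 2 := by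
  have haD : 0 ≤ a * D := mul_nonneg ha hD
  by_cases h : a + r + D ≤ 1
  · have h1 : 0 ≤ 1 - a ^ 2 := by nlinarith
    have h2 : 0 ≤ 1 - (a + r + D) ^ 2 := by nlinarith
    have h3 : 0 ≤ 1 - (a - r + D) ^ 2 := by nlinarith
    rw [max_eq_right h1, max_eq_right h2, max_eq_right h3]
    set X := 2 * (a * D) + D ^ 2 + r ^ 2 with hX
    have hX0 : 0 ≤ X := by positivity
    have e : (1 - a ^ 2) ^ 2 - (1 - (a + r + D) ^ 2) * (1 - (a - r + D) ^ 2)
        = X * (2 - (a ^ 2 + (a + D) ^ 2 + r ^ 2)) + 4 * (a + D) ^ 2 * r ^ 2 := by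
      rw [hX]; ring
    have h4 : X * (2 - (a ^ 2 + (a + D) ^ 2 + r ^ 2)) ≤ X * 2 :=
      mul_le_mul_of_nonneg_left (by nlinarith [sq_nonneg a, sq_nonneg (a + D), sq_nonneg r]) hX0
    have h5 : (a + D) ^ 2 ≤ 1 := by nlinarith
    have h6 : 4 * (a + D) ^ 2 * r ^ 2 ≤ 4 * 1 * r ^ 2 := by gcongr
    rw [e]
    nlinarith [sq_nonneg D]
  · push Not at h
    have h1 : max 0 (1 - a ^ 2) ≤ 2 * (r + D) := by
      refine max_le (by positivity) ?_
      nlinarith [sq_nonneg (1 - a)]
    have h2 : max 0 (1 - a ^ 2) ^ 2 ≤ (2 * (r + D)) ^ 2 :=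
      pow_le_pow_left₀ (le_max_left _ _) h1 2
    have h3 : 0 ≤ max 0 (1 - (a + r + D) ^ 2) * max 0 (1 - (a - r + D) ^ 2) :=
      mul_nonneg (le_max_left _ _) (le_max_left _ _)
    nlinarith [sq_nonneg (r - D)]

theorem cut_aux2 {a p D : ℝ} (ha : 0 ≤ a) (hD : 0 ≤ D) (hp : p ^ 2 ≤ 4 * a * D) :
    max 0 (1 - a ^ 2) ^ 2 - max 0 (1 - (a + p + D) ^ 2) * max 0 (1 - (a - p + D) ^ 2)
      ≤ 32 * (a * D) + 8 * D ^ 2 := by
  rcases le_total 0 p with h | h
  · exact cut_aux ha hD h hp
  · have := cut_aux (r := -p) ha hD (by linarith) (by rwa [neg_sq])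
    rw [mul_comm, ← sub_eq_add_neg, sub_neg_eq_add] at this
    exact this

namespace Con

theorem chi_shift {c : Con N} (hc : c.Ok) (x v : Fin N → ℝ) :
    c.chi x ^ 2 - c.chi (x + v) * c.chi (x + -v)
      ≤ 32 * (c.q x / c.β * (c.q v / c.β)) + 8 * (c.q v / c.β) ^ 2 := by
  have hβ := hc.2.2
  set B := ∑ a ∈ c.A, lin (c.M a) x * lin (c.M a) v with hB
  have e1 : c.q (x + v) / c.β = c.q x / c.β + 2 * B / c.β + c.q v / c.β := by
    rw [← add_div, ← add_div]
    congr 1
    simp only [q, hB, lin_add, Finset.mul_sum, ← Finset.sum_add_distrib]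
    exact Finset.sum_congr rfl fun a _ => by ring
  have e2 : c.q (x + -v) / c.β = c.q x / c.β - 2 * B / c.β + c.q v / c.β := by
    rw [← sub_div, ← add_div]
    congr 1
    simp only [q, hB, lin_add, lin_neg, Finset.mul_sum, ← Finset.sum_add_distrib,
      ← Finset.sum_sub_distrib]
    exact Finset.sum_congr rfl fun a _ => by ring
  have hCS : B ^ 2 ≤ c.q x * c.q v := Finset.sum_mul_sq_le_sq_mul_sq _ _ _
  unfold chi
  rw [e1, e2]
  refine cut_aux2 (div_nonneg (c.q_nonneg _) hβ.le) (div_nonneg (c.q_nonneg _) hβ.le) ?_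
  have : 4 * (c.q x / c.β) * (c.q v / c.β) = (4 * (c.q x * c.q v)) / c.β ^ 2 := by
    field_simp
  rw [this, div_pow]
  gcongr
  nlinarith

theorem chi_sq_ge {c : Con N} (hc : c.Ok) (x : Fin N → ℝ) :
    1 - 2 * (c.q x / c.β) ≤ c.chi x ^ 2 := by
  have ha : 0 ≤ c.q x / c.β := div_nonneg (c.q_nonneg _) hc.2.2.le
  unfold chi
  set a := c.q x / c.β
  rcases le_total 0 (1 - a ^ 2) with h | h
  · rw [max_eq_right h]
    have h1 : a ≤ 1 := by nlinarith
    nlinarith [sq_nonneg (a ^ 2), mul_nonneg ha (sub_nonneg.2 h1)]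
  · rw [max_eq_left h]
    have h1 : 1 ≤ a := by nlinarith
    linarith

theorem half_le {c : Con N} (hc : c.Ok) {g : (Fin N → ℝ) → ℝ} (hg : Adm g) :
    1 / 2 * ∫ x, gam x * g x ≤ ∫ x, gam x * (g x * (c.chi x * c.chi x)) := by
  have hβ := hc.2.2
  have h0 : ∀ x, 0 ≤ gam x * g x := fun x => mul_nonneg (gam_pos x).le (hg.2.1 x)
  have hI : 0 ≤ ∫ x, gam x * g x := integral_nonneg h0
  have i2 : Integrable (fun x => 2 / c.β * (gam x * g x * c.q x)) volume :=
    (int_q hg).const_mul _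
  have h1 : ∫ x, (gam x * g x - 2 / c.β * (gam x * g x * c.q x))
      ≤ ∫ x, gam x * (g x * (c.chi x * c.chi x)) := by
    refine integral_mono (hg.int.sub i2) (hg.mul ((adm_chi hc).mul (adm_chi hc))).int fun x => ?_
    have h2 := mul_le_mul_of_nonneg_left (chi_sq_ge hc x) (h0 x)
    simp only
    calc _ = gam x * g x * (1 - 2 * (c.q x / c.β)) := by ring
      _ ≤ _ := h2
      _ = _ := by ring
  rw [integral_sub hg.int i2, integral_const_mul] at h1
  have h3 := second_q hc hg
  have h4 : c.W / 4 * ∫ x, gam x * g x ≤ c.β / 4 * ∫ x, gam x * g x := by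
    have := hc.2.1
    gcongr
  have h5 : 2 / c.β * ∫ x, gam x * g x * c.q x ≤ 2 / c.β * (c.β / 4 * ∫ x, gam x * g x) :=
    mul_le_mul_of_nonneg_left (h3.trans h4) (by positivity)
  have h6 : 2 / c.β * (c.β / 4 * ∫ x, gam x * g x) = 1 / 2 * ∫ x, gam x * g x := by
    field_simp
    ring
  linarith

theorem step {c : Con N} (hc : c.Ok) {g : (Fin N → ℝ) → ℝ} (hg : Adm g) (v : Fin N → ℝ)
    (hv : c.q v ≤ c.W) :
    (1 - 32 * (c.q v * c.W / c.β ^ 2)) * ∫ x, gam x * (g x * (c.chi x * c.chi x))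
      ≤ ∫ x, gam x * (g x * (c.chi (x + v) * c.chi (x + -v))) := by
  have hβ := hc.2.2
  have h0 : ∀ x, 0 ≤ gam x * g x := fun x => mul_nonneg (gam_pos x).le (hg.2.1 x)
  have hI : 0 ≤ ∫ x, gam x * g x := integral_nonneg h0
  set D := c.q v / c.β with hD
  have hD0 : 0 ≤ D := div_nonneg (c.q_nonneg _) hβ.le
  have i1 := (hg.mul ((adm_chi hc).mul (adm_chi hc))).int
  have i2 := (hg.mul ((adm_chi hc).shift v)).int
  have i3 : Integrable (fun x => 32 * D / c.β * (gam x * g x * c.q x)) volume :=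
    (int_q hg).const_mul _
  have i4 : Integrable (fun x => 8 * D ^ 2 * (gam x * g x)) volume := hg.int.const_mul _
  have h1 : ∫ x, (gam x * (g x * (c.chi x * c.chi x))
      - gam x * (g x * (c.chi (x + v) * c.chi (x + -v))))
      ≤ ∫ x, (32 * D / c.β * (gam x * g x * c.q x) + 8 * D ^ 2 * (gam x * g x)) := by
    refine integral_mono (i1.sub i2) (i3.add i4) fun x => ?_
    have h2 := mul_le_mul_of_nonneg_left (chi_shift hc x v) (h0 x)
    simp only
    calc _ = gam x * g x * (c.chi x ^ 2 - c.chi (x + v) * c.chi (x + -v)) := by ring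
      _ ≤ _ := h2
      _ = _ := by rw [← hD]; ring
  rw [integral_sub i1 i2, integral_add i3 i4, integral_const_mul, integral_const_mul] at h1
  have h3 := second_q hc hg
  have h4 := half_le hc hg
  have hW := W_nonneg hc
  have h5 : 32 * D / c.β * ∫ x, gam x * g x * c.q x
      ≤ 32 * D / c.β * (c.W / 4 * ∫ x, gam x * g x) :=
    mul_le_mul_of_nonneg_left h3 (by positivity)
  have h6 : D ≤ c.W / c.β := div_le_div_of_nonneg_right hv hβ.le
  have h7 : 8 * D ^ 2 * ∫ x, gam x * g x ≤ 8 * (D * (c.W / c.β)) * ∫ x, gam x * g x := by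
    rw [sq]
    gcongr
  have e1 : c.q v * c.W / c.β ^ 2 = D * (c.W / c.β) := by
    rw [hD]
    field_simp
  have e2 : 32 * D / c.β * (c.W / 4 * ∫ x, gam x * g x)
      = 8 * (D * (c.W / c.β)) * ∫ x, gam x * g x := by
    field_simp
    ring
  rw [e1]
  have h8 : 0 ≤ D * (c.W / c.β) := by positivity
  have h9 := mul_le_mul_of_nonneg_left h4 h8
  nlinarith

end Con

/-- The product of the cutoffs of a list of constraints. -/
noncomputable def chiL : List (Con N) → (Fin N → ℝ) → ℝ
  | [] => fun _ => 1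
  | c :: L => fun x => c.chi x * chiL L x

theorem adm_chiL : ∀ {L : List (Con N)}, (∀ c ∈ L, c.Ok) → Adm (chiL L)
  | [], _ => adm_one
  | c :: _, h => (Con.adm_chi (h c List.mem_cons_self)).mul
      (adm_chiL fun c' hc' => h c' (List.mem_cons_of_mem _ hc'))

theorem chiL_supp : ∀ {L : List (Con N)}, (∀ c ∈ L, c.Ok) → ∀ x, chiL L x ≠ 0 →
    ∀ c ∈ L, c.q x ≤ c.β
  | [], _, _, _, c, hc => absurd hc List.not_mem_nil
  | c :: L, h, x, hx, c', hc' => by
    have hx' : c.chi x * chiL L x ≠ 0 := hx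
    rcases List.mem_cons.1 hc' with rfl | hc'
    · have hβ := (h c' List.mem_cons_self).2.2
      have h1 := left_ne_zero_of_mul hx'
      by_contra h2
      push Not at h2
      apply h1
      have h3 : 1 < c'.q x / c'.β := by rwa [one_lt_div hβ]
      exact max_eq_left (by nlinarith)
    · exact chiL_supp (fun c' hc' => h c' (List.mem_cons_of_mem _ hc')) x
        (right_ne_zero_of_mul hx') c' hc'

theorem chiL_pos : ∀ {L : List (Con N)}, (∀ c ∈ L, c.Ok) →
    0 < ∫ x, gam x * (chiL L x * chiL L x)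
  | [], _ => by
    have := integral_exp_pos (integrable_gauss (N := N) (b := 4) (by norm_num))
    simpa [chiL, gam] using this
  | c :: L, h => by
    have hL : ∀ c' ∈ L, c'.Ok := fun c' hc' => h c' (List.mem_cons_of_mem _ hc')
    have h1 := chiL_pos hL
    have h2 := Con.half_le (h c List.mem_cons_self) ((adm_chiL hL).mul (adm_chiL hL))
    have e : ∀ x, gam x * (chiL (c :: L) x * chiL (c :: L) x)
        = gam x * (chiL L x * chiL L x * (c.chi x * c.chi x)) := by
      intro x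
      simp only [chiL]
      ring
    simp_rw [e]
    linarith

theorem hybrid (v : Fin N → ℝ) : ∀ {L : List (Con N)}, (∀ c ∈ L, c.Ok) →
    (∀ c ∈ L, c.q v ≤ c.W) → 32 * (L.map fun c => c.q v * c.W / c.β ^ 2).sum ≤ 1 →
    ∀ {g : (Fin N → ℝ) → ℝ}, Adm g →
    (1 - 32 * (L.map fun c => c.q v * c.W / c.β ^ 2).sum)
        * ∫ x, gam x * (g x * (chiL L x * chiL L x))
      ≤ ∫ x, gam x * (g x * (chiL L (x + v) * chiL L (x + -v)))
  | [], _, _, _, g, _ => by simp [chiL]
  | c :: L, h, hv, hs, g, hg => by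
    have hL : ∀ c' ∈ L, c'.Ok := fun c' hc' => h c' (List.mem_cons_of_mem _ hc')
    have hc := h c List.mem_cons_self
    rw [List.map_cons, List.sum_cons] at hs ⊢
    set δ := c.q v * c.W / c.β ^ 2 with hδ
    set S := (L.map fun c => c.q v * c.W / c.β ^ 2).sum with hS
    have hδ0 : 0 ≤ δ := div_nonneg (mul_nonneg (c.q_nonneg _) (Con.W_nonneg hc)) (sq_nonneg _)
    have hS0 : 0 ≤ S := List.sum_nonneg (by
      intro y hy
      obtain ⟨c', hc', rfl⟩ := List.mem_map.1 hy
      exact div_nonneg (mul_nonneg (c'.q_nonneg _) (Con.W_nonneg (hL c' hc'))) (sq_nonneg _))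
    have h1 := hybrid v hL (fun c' hc' => hv c' (List.mem_cons_of_mem _ hc'))
      (by rw [← hS]; linarith) (hg.mul ((Con.adm_chi hc).shift v))
    have h2 := Con.step hc (hg.mul ((adm_chiL hL).mul (adm_chiL hL))) v (hv c List.mem_cons_self)
    rw [← hS] at h1
    rw [← hδ] at h2
    have e1 : ∀ x, gam x * (g x * (chiL (c :: L) x * chiL (c :: L) x))
        = gam x * (g x * (chiL L x * chiL L x) * (c.chi x * c.chi x)) := by
      intro x
      simp only [chiL]
      ring
    have e2 : ∀ x, gam x * (g x * (chiL (c :: L) (x + v) * chiL (c :: L) (x + -v)))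
        = gam x * (g x * (c.chi (x + v) * c.chi (x + -v))
          * (chiL L (x + v) * chiL L (x + -v))) := by
      intro x
      simp only [chiL]
      ring
    have e3 : ∀ x, gam x * (g x * (c.chi (x + v) * c.chi (x + -v)) * (chiL L x * chiL L x))
        = gam x * (g x * (chiL L x * chiL L x) * (c.chi (x + v) * c.chi (x + -v))) := by
      intro x
      ring
    simp_rw [e1, e2]
    simp_rw [e3] at h1
    have hI : 0 ≤ ∫ x, gam x * (g x * (chiL L x * chiL L x) * (c.chi x * c.chi x)) :=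
      integral_nonneg fun x => mul_nonneg (gam_pos x).le
        (((hg.mul ((adm_chiL hL).mul (adm_chiL hL))).mul
          ((Con.adm_chi hc).mul (Con.adm_chi hc))).2.1 x)
    have h3 := mul_le_mul_of_nonneg_left h2 (by linarith : 0 ≤ 1 - 32 * S)
    have h4 : 0 ≤ S * δ * ∫ x, gam x * (g x * (chiL L x * chiL L x) * (c.chi x * c.chi x)) := by
      positivity
    nlinarith

/-- The amplitude attached to a list of constraints of small load. -/
theorem gauss_main (L : List (Con N)) (hL : ∀ c ∈ L, c.Ok)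
    (hload : ∀ i, (L.map fun c => c.load i).sum ≤ 2) :
    ∃ ψ : (Fin N → ℝ) → ℝ, (∀ x, 0 ≤ ψ x) ∧ MemLp ψ 2 volume ∧
      (∀ x, ψ x ≠ 0 → ∀ c ∈ L, c.q x ≤ c.β) ∧ 0 < wt ψ ∧
      ∀ i : Fin N, 0.98 * wt ψ ≤ aff ψ ((1 / 200 : ℝ) • Pi.single i 1) := by
  have hA := adm_chiL hL
  have e0 : ∀ x, (exp (-2 * nsq x) * chiL L x) ^ 2 = gam x * (chiL L x * chiL L x) := by
    intro x
    have : gam x = exp (-2 * nsq x) * exp (-2 * nsq x) := by
      rw [gam, ← exp_add]
      congr 1
      ring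
    rw [this]
    ring
  have hw : wt (fun x => exp (-2 * nsq x) * chiL L x)
      = ∫ x, gam x * (chiL L x * chiL L x) := by
    unfold wt
    simp_rw [e0]
  refine ⟨fun x => exp (-2 * nsq x) * chiL L x, fun x => mul_nonneg (exp_pos _).le (hA.2.1 x),
    ?_, fun x hx => chiL_supp hL x (right_ne_zero_of_mul hx), ?_, fun i => ?_⟩
  · have hc : Continuous fun x : Fin N → ℝ => exp (-2 * nsq x) * chiL L x := by
      have := continuous_nsq (N := N)
      have := hA.1
      fun_prop
    rw [memLp_two_iff_integrable_sq hc.aestronglyMeasurable]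
    simp_rw [e0]
    exact (hA.mul hA).int
  · rw [hw]
    exact chiL_pos hL
  · set v : Fin N → ℝ := (3 : ℝ) • (1 / 200 : ℝ) • Pi.single i 1 with hv
    have hq : ∀ c : Con N, c.q v = 9 / 40000 * c.col i := by
      intro c
      simp only [Con.q, Con.col, hv, lin_smul, lin_single, Finset.mul_sum]
      exact Finset.sum_congr rfl fun a _ => by ring
    have hn : nsq v = 9 / 40000 := by
      have : ∀ j, v j ^ 2 = if j = i then 9 / 40000 else 0 := by
        intro j
        by_cases hj : j = i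
        · subst hj
          simp [hv]
          norm_num
        · simp [hv, hj]
      simp [nsq, this]
    have hS : (L.map fun c => c.q v * c.W / c.β ^ 2).sum
        = 9 / 40000 * (L.map fun c => c.load i).sum := by
      rw [← List.sum_map_mul_left]
      congr 2
      ext c
      rw [hq, Con.load]
      ring
    have h1 := hybrid v hL (fun c hc => by
      have := Con.col_le (hL c hc) i
      have := c.col_nonneg i
      rw [hq]
      linarith) (by rw [hS]; linarith [hload i]) adm_one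
    simp only [one_mul] at h1
    rw [hS] at h1
    have e1 : ∀ x, exp (-2 * nsq (x + v)) * chiL L (x + v)
        * (exp (-2 * nsq (x + -v)) * chiL L (x + -v))
        = exp (-(9 / 10000)) * (gam x * (chiL L (x + v) * chiL L (x + -v))) := by
      intro x
      have h2 := nsq_mid (x + v) (x + -v)
      have h3 : (1 / 2 : ℝ) • (x + v + (x + -v)) = x := by module
      have h4 : nsq (x + v + -(x + -v)) = 4 * nsq v := by
        unfold nsq
        rw [Finset.mul_sum]
        refine Finset.sum_congr rfl fun j _ => ?_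
        simp only [Pi.add_apply, Pi.neg_apply]
        ring
      rw [h3, h4, hn] at h2
      have h5 : exp (-2 * nsq (x + v)) * exp (-2 * nsq (x + -v)) = exp (-(9 / 10000)) * gam x := by
        rw [gam, ← exp_add, ← exp_add]
        congr 1
        linarith
      calc _ = exp (-2 * nsq (x + v)) * exp (-2 * nsq (x + -v))
            * (chiL L (x + v) * chiL L (x + -v)) := by ring
        _ = _ := by rw [h5]; ring
    have ha : aff (fun x => exp (-2 * nsq x) * chiL L x) ((1 / 200 : ℝ) • Pi.single i 1)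
        = exp (-(9 / 10000)) * ∫ x, gam x * (chiL L (x + v) * chiL L (x + -v)) := by
      unfold aff
      rw [← hv, ← integral_const_mul]
      simp_rw [e1]
    rw [ha, hw]
    have hI := chiL_pos hL
    have h6 : 1 - 9 / 10000 ≤ exp (-(9 / 10000)) := by
      have := Real.add_one_le_exp (-(9 / 10000))
      linarith
    have h7 : (1 - 32 * (9 / 40000 * 2)) * ∫ x, gam x * (chiL L x * chiL L x)
        ≤ ∫ x, gam x * (chiL L (x + v) * chiL L (x + -v)) := by
      refine le_trans (mul_le_mul_of_nonneg_right ?_ hI.le) h1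
      linarith [hload i]
    have h8 : 0 ≤ ∫ x, gam x * (chiL L (x + v) * chiL L (x + -v)) :=
      le_trans (by positivity) h7
    have h9 := mul_le_mul_of_nonneg_right h6 h8
    nlinarith

end Crest.Agent.R239
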