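import Mathlib
import Crest.Agent.R239.Gauss

/-!
# Controlling prefix sums by quadratic constraints of small load

Author: helper42.
-/

set_option autoImplicit false

namespace Crest.Agent.R239

variable {N : ℕ}

/-- The property `P` is forced by constraints of total load at most `ℓ`. -/
def Ctrl (ℓ : Fin N → ℝ) (P : (Fin N → ℝ) → Prop) : Prop :=
  ∃ L : List (Con N), (∀ c ∈ L, c.Ok) ∧ (∀ i, (L.map fun c => c.load i).sum ≤ ℓ i) ∧
    ∀ x, (∀ c ∈ L, c.q x ≤ c.β) → P x

theorem Ctrl.mono {ℓ ℓ' : Fin N → ℝ} {P P' : (Fin N → ℝ) → Prop} (h : Ctrl ℓ P)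
    (h1 : ∀ i, ℓ i ≤ ℓ' i) (h2 : ∀ x, P x → P' x) : Ctrl ℓ' P' := by
  obtain ⟨L, a, b, c⟩ := h
  exact ⟨L, a, fun i => (b i).trans (h1 i), fun x hx => h2 x (c x hx)⟩

theorem Ctrl.triv {ℓ : Fin N → ℝ} {P : (Fin N → ℝ) → Prop} (h1 : ∀ i, 0 ≤ ℓ i)
    (h2 : ∀ x, P x) : Ctrl ℓ P :=
  ⟨[], fun _ h => absurd h List.not_mem_nil, fun i => by simpa using h1 i, fun x _ => h2 x⟩

theorem Ctrl.single {c : Con N} (hc : c.Ok) : Ctrl c.load (fun x => c.q x ≤ c.β) :=
  ⟨[c], fun c' h => by rw [List.mem_singleton.1 h]; exact hc, fun i => by simp,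
    fun x hx => hx c (List.mem_singleton.2 rfl)⟩

theorem Ctrl.and {ℓ ℓ' : Fin N → ℝ} {P P' : (Fin N → ℝ) → Prop} (h : Ctrl ℓ P)
    (h' : Ctrl ℓ' P') : Ctrl (fun i => ℓ i + ℓ' i) (fun x => P x ∧ P' x) := by
  obtain ⟨L, a, b, c⟩ := h
  obtain ⟨L', a', b', c'⟩ := h'
  refine ⟨L ++ L', fun k hk => ?_, fun i => ?_, fun x hx => ⟨c x fun k hk => ?_, c' x fun k hk => ?_⟩⟩
  · rcases List.mem_append.1 hk with hk | hk
    · exact a k hk
    · exact a' k hk
  · rw [List.map_append, List.sum_append]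
    exact add_le_add (b i) (b' i)
  · exact hx k (List.mem_append_left _ hk)
  · exact hx k (List.mem_append_right _ hk)

theorem Ctrl.finset {κ : Type*} (s : Finset κ) (ℓ : κ → Fin N → ℝ)
    (P : κ → (Fin N → ℝ) → Prop) (h : ∀ k ∈ s, Ctrl (ℓ k) (P k)) :
    Ctrl (fun i => ∑ k ∈ s, ℓ k i) (fun x => ∀ k ∈ s, P k x) := by
  classical
  induction s using Finset.induction_on with
  | empty => exact Ctrl.triv (fun i => by simp) (fun x k hk => absurd hk (Finset.notMem_empty k))
  | insert a s ha ih =>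
    refine ((h a (Finset.mem_insert_self a s)).and
      (ih fun k hk => h k (Finset.mem_insert_of_mem hk))).mono (fun i => ?_) ?_
    · rw [Finset.sum_insert ha]
    · rintro x ⟨h1, h2⟩ k hk
      rcases Finset.mem_insert.1 hk with rfl | hk
      · exact h1
      · exact h2 k hk

/-- Restriction of a coefficient vector to the window `[lo, hi)`. -/
def win (m : Fin N → ℝ) (lo hi : ℕ) : Fin N → ℝ :=
  fun i => if lo ≤ (i : ℕ) ∧ (i : ℕ) < hi then m i else 0

theorem lin_win_add (m x : Fin N → ℝ) {lo t hi : ℕ} (h1 : lo ≤ t) (h2 : t ≤ hi) :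
    lin (win m lo hi) x = lin (win m lo t) x + lin (win m t hi) x := by
  unfold lin
  rw [← Finset.sum_add_distrib]
  refine Finset.sum_congr rfl fun i _ => ?_
  unfold win
  split_ifs <;> first | omega | simp

theorem nsq_win_add (m : Fin N → ℝ) {lo t hi : ℕ} (h1 : lo ≤ t) (h2 : t ≤ hi) :
    nsq (win m lo hi) = nsq (win m lo t) + nsq (win m t hi) := by
  unfold nsq
  rw [← Finset.sum_add_distrib]
  refine Finset.sum_congr rfl fun i _ => ?_
  unfold win
  split_ifs <;> first | omega | simp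

theorem win_empty (m : Fin N → ℝ) {lo hi : ℕ} (h : hi ≤ lo) : win m lo hi = 0 := by
  ext i
  unfold win
  rw [if_neg (by omega)]
  rfl

theorem win_full (m : Fin N → ℝ) : win m 0 N = m := by
  ext i
  unfold win
  rw [if_pos ⟨Nat.zero_le _, i.2⟩]

theorem nsq_zero : nsq (0 : Fin N → ℝ) = 0 := by simp [nsq]

theorem lin_zero (x : Fin N → ℝ) : lin 0 x = 0 := by simp [lin]

theorem geom_le {ρ : ℝ} (h0 : 0 ≤ ρ) (h1 : ρ < 1) (n : ℕ) :
    ∑ g ∈ Finset.range n, ρ ^ g ≤ 1 / (1 - ρ) := by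
  rw [le_div_iff₀ (by linarith), geom_sum_mul_neg]
  have := pow_nonneg h0 n
  linarith

/-- Chaining by median splits. -/
theorem lemM {ι : Type} (A : Finset ι) (M : ι → Fin N → ℝ) {W : ℝ} (hW : 0 < W) (n : ℕ) :
    ∀ lo hi k : ℕ, hi ≤ lo + n → ∑ a ∈ A, nsq (win (M a) lo hi) ≤ W * (1 / 2) ^ k →
      Ctrl (fun i => if lo ≤ (i : ℕ) ∧ (i : ℕ) < hi then
          5 * (25 / 32) ^ k / W * ∑ a ∈ A, M a i ^ 2 else 0)
        (fun x => ∀ t, lo ≤ t → t ≤ hi →
          ∑ a ∈ A, lin (win (M a) lo t) x ^ 2 ≤ 100 * W * (4 / 5) ^ k) := by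
  have hcol : ∀ i, 0 ≤ ∑ a ∈ A, M a i ^ 2 := fun i => Finset.sum_nonneg fun _ _ => sq_nonneg _
  have base : ∀ lo hi k : ℕ, hi ≤ lo →
      Ctrl (fun i : Fin N => if lo ≤ (i : ℕ) ∧ (i : ℕ) < hi then
          5 * (25 / 32) ^ k / W * ∑ a ∈ A, M a i ^ 2 else 0)
        (fun x => ∀ t, lo ≤ t → t ≤ hi →
          ∑ a ∈ A, lin (win (M a) lo t) x ^ 2 ≤ 100 * W * (4 / 5) ^ k) := by
    intro lo hi k h
    refine Ctrl.triv (fun i => by rw [if_neg (by omega)]) fun x t h1 h2 => ?_
    have : ∀ a, win (M a) lo t = 0 := fun a => win_empty _ (by omega)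
    simp only [this, lin_zero]
    simp only [ne_eq, OfNat.ofNat_ne_zero, not_false_eq_true, zero_pow, Finset.sum_const_zero]
    positivity
  induction n with
  | zero => exact fun lo hi k h _ => base lo hi k h
  | succ n ih =>
    intro lo hi k h hw
    by_cases hlh : hi ≤ lo
    · exact base lo hi k hlh
    classical
    set P : ℕ → Prop := fun t => ∑ a ∈ A, nsq (win (M a) lo t) ≤ W * (1 / 2) ^ (k + 1) with hP
    have hPlo : P lo := by
      have : ∀ a, win (M a) lo lo = 0 := fun a => win_empty _ le_rfl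
      simp only [hP, this, nsq_zero, Finset.sum_const_zero]
      positivity
    set m := Nat.findGreatest P (hi - 1) with hm
    have hm1 : lo ≤ m := Nat.le_findGreatest (by omega) hPlo
    have hm2 : m ≤ hi - 1 := Nat.findGreatest_le _
    have hm3 : P m := Nat.findGreatest_spec (m := lo) (by omega) hPlo
    have hadd : ∑ a ∈ A, nsq (win (M a) lo hi)
        = ∑ a ∈ A, nsq (win (M a) lo (m + 1)) + ∑ a ∈ A, nsq (win (M a) (m + 1) hi) := by
      rw [← Finset.sum_add_distrib]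
      exact Finset.sum_congr rfl fun a _ => nsq_win_add _ (by omega) (by omega)
    have hn1 : 0 ≤ ∑ a ∈ A, nsq (win (M a) (m + 1) hi) :=
      Finset.sum_nonneg fun _ _ => nsq_nonneg _
    have hm4 : ∑ a ∈ A, nsq (win (M a) (m + 1) hi) ≤ W * (1 / 2) ^ (k + 1) := by
      by_cases hmh : m = hi - 1
      · have : ∀ a, win (M a) (m + 1) hi = 0 := fun a => win_empty _ (by omega)
        simp only [this, nsq_zero, Finset.sum_const_zero]
        positivity
      · have h5 : ¬ P (m + 1) := Nat.findGreatest_is_greatest (Nat.lt_succ_self m) (by omega)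
        simp only [hP, not_le] at h5
        rw [pow_succ] at h5 ⊢
        linarith
    have c1 := ih lo m (k + 1) (by omega) hm3
    have c2 := ih (m + 1) hi (k + 1) (by omega) hm4
    let c : Con N := ⟨ι, A, fun a => win (M a) lo (m + 1), W * (1 / 2) ^ k, W * (4 / 5) ^ k⟩
    have hc : c.Ok := by
      refine ⟨?_, ?_, ?_⟩
      · change ∑ a ∈ A, nsq (win (M a) lo (m + 1)) ≤ W * (1 / 2) ^ k
        linarith
      · change W * (1 / 2) ^ k ≤ W * (4 / 5) ^ k
        exact mul_le_mul_of_nonneg_left (pow_le_pow_left₀ (by norm_num) (by norm_num) k) hW.le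
      · change 0 < W * (4 / 5) ^ k
        positivity
    have hload : ∀ i, c.load i = if lo ≤ (i : ℕ) ∧ (i : ℕ) < m + 1 then
        (25 / 32) ^ k / W * ∑ a ∈ A, M a i ^ 2 else 0 := by
      intro i
      change (∑ a ∈ A, win (M a) lo (m + 1) i ^ 2) * (W * (1 / 2) ^ k) / (W * (4 / 5) ^ k) ^ 2 = _
      unfold win
      split_ifs with h6
      · have e : ((1 : ℝ) / 2) ^ k = (25 / 32) ^ k * ((4 / 5) ^ k) ^ 2 := by
          rw [← pow_mul, mul_comm k 2, pow_mul, ← mul_pow]
          norm_num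
        rw [e]
        field_simp
      · simp
    refine (((Ctrl.single hc).and c1).and c2).mono (fun i => ?_) ?_
    · rw [hload]
      have h7 : 0 ≤ (25 / 32 : ℝ) ^ k / W * ∑ a ∈ A, M a i ^ 2 :=
        mul_nonneg (by positivity) (hcol i)
      have e1 : 5 * (25 / 32 : ℝ) ^ (k + 1) / W * ∑ a ∈ A, M a i ^ 2
          = 125 / 32 * ((25 / 32 : ℝ) ^ k / W * ∑ a ∈ A, M a i ^ 2) := by ring
      have e2 : 5 * (25 / 32 : ℝ) ^ k / W * ∑ a ∈ A, M a i ^ 2
          = 5 * ((25 / 32 : ℝ) ^ k / W * ∑ a ∈ A, M a i ^ 2) := by ring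
      rw [e1, e2]
      split_ifs <;> first | omega | linarith
    · rintro x ⟨⟨h1, h2⟩, h3⟩ t ht1 ht2
      have hpos : 0 < W * (4 / 5 : ℝ) ^ k := by positivity
      by_cases htm : t ≤ m
      · have := h2 t ht1 htm
        rw [pow_succ] at this
        linarith
      · have h4 := h3 t (by omega) ht2
        change ∑ a ∈ A, lin (win (M a) lo (m + 1)) x ^ 2 ≤ W * (4 / 5) ^ k at h1
        have h5 : ∑ a ∈ A, lin (win (M a) lo t) x ^ 2
            ≤ 10 * ∑ a ∈ A, lin (win (M a) lo (m + 1)) x ^ 2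
              + 10 / 9 * ∑ a ∈ A, lin (win (M a) (m + 1) t) x ^ 2 := by
          rw [Finset.mul_sum, Finset.mul_sum, ← Finset.sum_add_distrib]
          refine Finset.sum_le_sum fun a _ => ?_
          rw [lin_win_add (M a) x (t := m + 1) (by omega) (by omega)]
          nlinarith [sq_nonneg (3 * lin (win (M a) lo (m + 1)) x
            - 1 / 3 * lin (win (M a) (m + 1) t) x)]
        rw [pow_succ] at h4
        linarith

/-- Gap classes. -/
theorem lemG {ι : Type} (A : Finset ι) (M : ι → Fin N → ℝ) (lev : ι → Fin N → ℕ) {W : ℝ}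
    (hW : 0 < W)
    (hw : ∀ g, ∑ a ∈ A, ∑ i, (if lev a i = g then M a i ^ 2 else 0) ≤ W * (1 / 2) ^ g) :
    Ctrl (fun i => ∑ a ∈ A, 5 * (25 / 32) ^ lev a i / W * M a i ^ 2)
      (fun x => ∀ t ≤ N, ∑ a ∈ A, lin (win (M a) 0 t) x ^ 2 ≤ 10000 * W) := by
  obtain ⟨G, hG⟩ : ∃ G, ∀ a ∈ A, ∀ i, lev a i < G := by
    refine ⟨(A.sup fun a => Finset.univ.sup fun i => lev a i) + 1, fun a ha i => ?_⟩
    exact Nat.lt_succ_of_le (le_trans
      (Finset.le_sup (f := fun i => lev a i) (Finset.mem_univ i))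
      (Finset.le_sup (f := fun a => Finset.univ.sup fun i => lev a i) ha))
  set Mg : ℕ → ι → Fin N → ℝ := fun g a i => if lev a i = g then M a i else 0 with hMg
  have h1 := Ctrl.finset (Finset.range G) _ _ fun g _ =>
    lemM A (Mg g) hW N 0 N g (by omega) (by
      refine le_trans (le_of_eq ?_) (hw g)
      refine Finset.sum_congr rfl fun a _ => ?_
      rw [win_full]
      refine Finset.sum_congr rfl fun i _ => ?_
      simp only [hMg]
      split_ifs <;> simp)
  refine h1.mono (fun i => le_of_eq ?_) fun x hx t ht => ?_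
  · have e : ∀ g ∈ Finset.range G, (if 0 ≤ (i : ℕ) ∧ (i : ℕ) < N then
        5 * (25 / 32 : ℝ) ^ g / W * ∑ a ∈ A, Mg g a i ^ 2 else 0)
        = ∑ a ∈ A, if lev a i = g then 5 * (25 / 32) ^ lev a i / W * M a i ^ 2 else 0 := by
      intro g _
      rw [if_pos ⟨Nat.zero_le _, i.2⟩, Finset.mul_sum]
      refine Finset.sum_congr rfl fun a _ => ?_
      simp only [hMg]
      split_ifs with h
      · rw [h]
      · simp
    rw [Finset.sum_congr rfl e, Finset.sum_comm]
    refine Finset.sum_congr rfl fun a ha => ?_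
    rw [Finset.sum_ite_eq, if_pos (Finset.mem_range.2 (hG a ha i))]
  · have e : ∀ a ∈ A, lin (win (M a) 0 t) x = ∑ g ∈ Finset.range G, lin (win (Mg g a) 0 t) x := by
      intro a ha
      unfold lin
      rw [Finset.sum_comm]
      refine Finset.sum_congr rfl fun i _ => ?_
      rw [← Finset.sum_mul]
      congr 1
      unfold win
      split_ifs with h
      · simp only [hMg]
        rw [Finset.sum_ite_eq, if_pos (Finset.mem_range.2 (hG a ha i))]
      · simp
    have h2 : ∀ a ∈ A, lin (win (M a) 0 t) x ^ 2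
        ≤ 10 * ∑ g ∈ Finset.range G, lin (win (Mg g a) 0 t) x ^ 2 / (9 / 10) ^ g := by
      intro a ha
      rw [e a ha]
      have h3 := Finset.sum_sq_le_sum_mul_sum_of_sq_le_mul (Finset.range G)
        (r := fun g => lin (win (Mg g a) 0 t) x) (f := fun g => (9 / 10 : ℝ) ^ g)
        (g := fun g => lin (win (Mg g a) 0 t) x ^ 2 / (9 / 10) ^ g)
        (fun g _ => by positivity) (fun g _ => by positivity)
        (fun g _ => le_of_eq (by field_simp))
      refine h3.trans (mul_le_mul_of_nonneg_right ?_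
        (Finset.sum_nonneg fun g _ => by positivity))
      have := geom_le (ρ := 9 / 10) (by norm_num) (by norm_num) G
      norm_num at this ⊢
      exact this
    refine (Finset.sum_le_sum h2).trans ?_
    rw [← Finset.mul_sum, Finset.sum_comm]
    have h4 : ∑ g ∈ Finset.range G, ∑ a ∈ A, lin (win (Mg g a) 0 t) x ^ 2 / (9 / 10) ^ g
        ≤ ∑ g ∈ Finset.range G, 100 * W * (8 / 9 : ℝ) ^ g := by
      refine Finset.sum_le_sum fun g hg => ?_
      rw [← Finset.sum_div, div_le_iff₀ (by positivity), mul_assoc, ← mul_pow]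
      have := hx g hg t (Nat.zero_le _) ht
      norm_num at this ⊢
      exact this
    rw [← Finset.mul_sum] at h4
    have h5 := geom_le (ρ := 8 / 9) (by norm_num) (by norm_num) G
    have h6 : 100 * W * ∑ g ∈ Finset.range G, (8 / 9 : ℝ) ^ g ≤ 100 * W * (1 / (1 - 8 / 9)) := by
      gcongr
    norm_num at h6
    linarith

/-- Nested alive sets. -/
theorem lemN {ι : Type} (U : Finset ι) (A : ℕ → Finset ι) (M : ι → Fin N → ℝ)
    (lev : ι → Fin N → ℕ) (ω : ι → ℝ) (hAU : ∀ t, A t ⊆ U) (hω : ∀ a ∈ U, 0 ≤ ω a)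
    (hchain : ∀ s t, A s ⊆ A t ∨ A t ⊆ A s)
    (hw : ∀ a ∈ U, ∀ g, ∑ i, (if lev a i = g then M a i ^ 2 else 0) ≤ ω a * (1 / 2) ^ g) :
    Ctrl (fun i => ∑ a ∈ U, 10 * (25 / 32) ^ lev a i * M a i ^ 2)
      (fun x => ∀ t ≤ N, ∑ a ∈ A t, lin (win (M a) 0 t) x ^ 2
        ≤ 20000 * (1 + ∑ a ∈ A t, ω a)) := by
  classical
  have hG : ∀ p : ℕ, ∃ G : Finset ι, G ⊆ U ∧ ∑ a ∈ G, ω a ≤ 2 ^ p ∧
      ∀ t ≤ N, ∑ a ∈ A t, ω a ≤ 2 ^ p → A t ⊆ G := by
    intro p
    set T := (Finset.range (N + 1)).filter fun t => ∑ a ∈ A t, ω a ≤ 2 ^ p with hT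
    rcases T.eq_empty_or_nonempty with h | h
    · refine ⟨∅, Finset.empty_subset _, by simp, fun t ht h1 => ?_⟩
      have : t ∈ T := Finset.mem_filter.2 ⟨Finset.mem_range.2 (by omega), h1⟩
      rw [h] at this
      exact absurd this (Finset.notMem_empty t)
    · obtain ⟨t0, ht0, hmax⟩ := T.exists_max_image (fun t => (A t).card) h
      refine ⟨A t0, hAU t0, (Finset.mem_filter.1 ht0).2, fun t ht h1 => ?_⟩
      have : t ∈ T := Finset.mem_filter.2 ⟨Finset.mem_range.2 (by omega), h1⟩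
      rcases hchain t t0 with h2 | h2
      · exact h2
      · exact (Finset.eq_of_subset_of_card_le h2 (hmax t this)).symm.subset
  choose G hG1 hG2 hG3 using hG
  obtain ⟨P, hP⟩ : ∃ P : ℕ, 1 + ∑ a ∈ U, ω a < 2 ^ P := pow_unbounded_of_one_lt _ one_lt_two
  have h1 := Ctrl.finset (Finset.range (P + 1)) _ _ fun p _ =>
    lemG (G p) M lev (W := 2 ^ p) (by positivity) (fun g => by
      refine (Finset.sum_le_sum fun a ha => hw a (hG1 p ha) g).trans ?_
      rw [← Finset.sum_mul]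
      exact mul_le_mul_of_nonneg_right (hG2 p) (by positivity))
  refine h1.mono (fun i => ?_) fun x hx t ht => ?_
  · have h2 : ∀ p ∈ Finset.range (P + 1),
        ∑ a ∈ G p, 5 * (25 / 32 : ℝ) ^ lev a i / 2 ^ p * M a i ^ 2
        ≤ (1 / 2) ^ p * ∑ a ∈ U, 5 * (25 / 32 : ℝ) ^ lev a i * M a i ^ 2 := by
      intro p _
      rw [Finset.mul_sum]
      refine le_trans (Finset.sum_le_sum_of_subset_of_nonneg (hG1 p)
        (fun a _ _ => by positivity)) (le_of_eq (Finset.sum_congr rfl fun a _ => ?_))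
      rw [one_div, inv_pow]
      ring
    refine (Finset.sum_le_sum h2).trans ?_
    rw [← Finset.sum_mul]
    have h3 := geom_le (ρ := 1 / 2) (by norm_num) (by norm_num) (P + 1)
    have h4 : 0 ≤ ∑ a ∈ U, 5 * (25 / 32 : ℝ) ^ lev a i * M a i ^ 2 :=
      Finset.sum_nonneg fun a _ => by positivity
    refine (mul_le_mul_of_nonneg_right h3 h4).trans (le_of_eq ?_)
    rw [Finset.mul_sum]
    exact Finset.sum_congr rfl fun a _ => by ring
  · have hy0 : 0 ≤ ∑ a ∈ A t, ω a := Finset.sum_nonneg fun a ha => hω a (hAU t ha)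
    have hyU : ∑ a ∈ A t, ω a ≤ ∑ a ∈ U, ω a :=
      Finset.sum_le_sum_of_subset_of_nonneg (hAU t) fun a ha _ => hω a ha
    obtain ⟨n, hn1, hn2⟩ := exists_nat_pow_near (x := 1 + ∑ a ∈ A t, ω a) (y := 2)
      (by linarith) one_lt_two
    have hnP : n < P := by
      have : (2 : ℝ) ^ n < 2 ^ P := by linarith
      exact (pow_lt_pow_iff_right₀ one_lt_two).1 this
    have h5 := hx (n + 1) (Finset.mem_range.2 (by omega)) t ht
    have h6 := hG3 (n + 1) t ht (by linarith)
    refine (Finset.sum_le_sum_of_subset_of_nonneg h6 fun a _ _ => sq_nonneg _).trans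
      (h5.trans ?_)
    rw [pow_succ]
    linarith

/-- Keys: at every time only one key of each level is alive. -/
theorem lemK {ι : Type} (U : Finset ι) (A : ℕ → Finset ι) (M : ι → Fin N → ℝ)
    (lev : ι → Fin N → ℕ) (ω : ι → ℝ) (lv ce : ι → ℕ) (cell : ℕ → ℕ → ℕ) (J : ℕ)
    (hAU : ∀ t, A t ⊆ U) (hω : ∀ a ∈ U, 0 ≤ ω a) (hJ : ∀ a ∈ U, lv a < J)
    (hcell : ∀ t, ∀ a ∈ A t, ce a = cell (lv a) t)
    (hchain : ∀ s t, s ≤ t → ∀ j k : ℕ,
      (∀ a ∈ A s, lv a = j → ce a = k → a ∈ A t) ∨ (∀ a ∈ A t, lv a = j → ce a = k → a ∈ A s))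
    (hw : ∀ a ∈ U, ∀ g, ∑ i, (if lev a i = g then M a i ^ 2 else 0) ≤ ω a * (1 / 2) ^ g) :
    Ctrl (fun i => ∑ a ∈ U, 10 * (25 / 32) ^ lev a i * M a i ^ 2)
      (fun x => ∀ t ≤ N, ∑ a ∈ A t, lin (win (M a) 0 t) x ^ 2
        ≤ 20000 * (J + ∑ a ∈ A t, ω a)) := by
  classical
  set key : ι → ℕ × ℕ := fun a => (lv a, ce a) with hkey
  have hch : ∀ (k : ℕ × ℕ) s t, s ≤ t → (A s).filter (fun a => key a = k) ⊆
      (A t).filter (fun a => key a = k) ∨ (A t).filter (fun a => key a = k) ⊆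
      (A s).filter (fun a => key a = k) := by
    intro k s t hst
    rcases hchain s t hst k.1 k.2 with h | h
    · left
      intro a ha
      obtain ⟨h1, h2⟩ := Finset.mem_filter.1 ha
      exact Finset.mem_filter.2 ⟨h a h1 (congrArg Prod.fst h2) (congrArg Prod.snd h2), h2⟩
    · right
      intro a ha
      obtain ⟨h1, h2⟩ := Finset.mem_filter.1 ha
      exact Finset.mem_filter.2 ⟨h a h1 (congrArg Prod.fst h2) (congrArg Prod.snd h2), h2⟩
  have h1 := Ctrl.finset (U.image key) _ _ fun k _ =>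
    lemN (U.filter fun a => key a = k) (fun t => (A t).filter fun a => key a = k) M lev ω
      (fun t => Finset.filter_subset_filter _ (hAU t))
      (fun a ha => hω a (Finset.mem_filter.1 ha).1)
      (fun s t => by
        rcases le_total s t with h | h
        · exact hch k s t h
        · exact (hch k t s h).symm)
      (fun a ha => hw a (Finset.mem_filter.1 ha).1)
  refine h1.mono (fun i => le_of_eq ?_) fun x hx t ht => ?_
  · exact Finset.sum_fiberwise_of_maps_to (fun a ha => Finset.mem_image_of_mem key ha) _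
  · have hmap : ∀ a ∈ A t, lv a ∈ Finset.range J := fun a ha =>
      Finset.mem_range.2 (hJ a (hAU t ha))
    have hfil : ∀ j, (A t).filter (fun a => lv a = j)
        = (A t).filter (fun a => key a = (j, cell j t)) := by
      intro j
      refine Finset.filter_congr fun a ha => ⟨fun h => ?_, fun h => congrArg Prod.fst h⟩
      simp only [hkey]
      rw [hcell t a ha, h]
    rw [← Finset.sum_fiberwise_of_maps_to hmap, ← Finset.sum_fiberwise_of_maps_to hmap ω]
    have h2 : ∀ j ∈ Finset.range J,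
        ∑ a ∈ A t with lv a = j, lin (win (M a) 0 t) x ^ 2
          ≤ 20000 * (1 + ∑ a ∈ A t with lv a = j, ω a) := by
      intro j _
      rw [hfil]
      by_cases hk : (j, cell j t) ∈ U.image key
      · exact hx _ hk t ht
      · have : (A t).filter (fun a => key a = (j, cell j t)) = ∅ := by
          refine Finset.filter_eq_empty_iff.2 fun a ha h => hk ?_
          exact h ▸ Finset.mem_image_of_mem key (hAU t ha)
        rw [this]
        simp
    refine (Finset.sum_le_sum h2).trans (le_of_eq ?_)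
    rw [← Finset.mul_sum, Finset.sum_add_distrib]
    simp

end Crest.Agent.R239
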