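import Mathlib
import Crest.Agent.R239.Ctrl

/-!
# Anchoring the epochs of the rows

Author: helper42.
-/

set_option autoImplicit false

namespace Crest.Agent.R239

/-- The dyadic scale of a number in `(0,1]`. -/
noncomputable def ep (y : ℝ) : ℕ :=
  if h : 0 < y ∧ y ≤ 1 then
    (exists_nat_pow_near_of_lt_one (y := (1 / 2 : ℝ)) h.1 h.2 (by norm_num) (by norm_num)).choose
  else 0

theorem ep_spec {y : ℝ} (h0 : 0 < y) (h1 : y ≤ 1) :
    (1 / 2 : ℝ) ^ (ep y + 1) < y ∧ y ≤ (1 / 2) ^ ep y := by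
  unfold ep
  rw [dif_pos ⟨h0, h1⟩]
  exact (exists_nat_pow_near_of_lt_one (y := (1 / 2 : ℝ)) h0 h1 (by norm_num)
    (by norm_num)).choose_spec

theorem le_ep {y : ℝ} (h0 : 0 < y) (h1 : y ≤ 1) {m : ℕ} (h : y ≤ (1 / 2) ^ m) : m ≤ ep y := by
  have h2 := (ep_spec h0 h1).1.trans_le h
  have := (pow_lt_pow_iff_right_of_lt_one₀ (by norm_num) (by norm_num)).1 h2
  omega

theorem sum_half_le (n : ℕ) : ∀ y : ℝ, 0 ≤ y →
    ∑ m ∈ Finset.range n, (if (1 / 2 : ℝ) ^ m ≤ y then (1 / 2 : ℝ) ^ m else 0) ≤ 2 * y := by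
  induction n with
  | zero => intro y hy; simp [hy]
  | succ n ih =>
    intro y hy
    by_cases h : 1 ≤ y
    · have h1 := geom_le (ρ := 1 / 2) (by norm_num) (by norm_num) (n + 1)
      have h2 : ∑ m ∈ Finset.range (n + 1), (if (1 / 2 : ℝ) ^ m ≤ y then (1 / 2 : ℝ) ^ m else 0)
          ≤ ∑ m ∈ Finset.range (n + 1), (1 / 2 : ℝ) ^ m := by
        refine Finset.sum_le_sum fun m _ => ?_
        split_ifs
        · exact le_rfl
        · positivity
      norm_num at h1 h2 ⊢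
      linarith
    · rw [Finset.sum_range_succ', pow_zero, if_neg h, add_zero]
      have h1 := ih (2 * y) (by linarith)
      have h2 : ∀ m ∈ Finset.range n,
          (if (1 / 2 : ℝ) ^ (m + 1) ≤ y then (1 / 2 : ℝ) ^ (m + 1) else 0)
          = 1 / 2 * (if (1 / 2 : ℝ) ^ m ≤ 2 * y then (1 / 2 : ℝ) ^ m else 0) := by
        intro m _
        rw [pow_succ]
        split_ifs with h3 h4 h4
        · ring
        · exact absurd (by linarith) h4
        · exact absurd (by linarith) h3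
        · ring
      rw [Finset.sum_congr rfl h2, ← Finset.mul_sum]
      linarith

theorem sum_gap_le (n E : ℕ) :
    ∑ m ∈ Finset.range n, (if m ≤ E then (25 / 32 : ℝ) ^ (E - m) else 0) ≤ 5 := by
  rw [← Finset.sum_filter]
  have h1 : ∑ m ∈ (Finset.range n).filter (fun m => m ≤ E), (25 / 32 : ℝ) ^ (E - m)
      ≤ ∑ m ∈ Finset.range (E + 1), (25 / 32 : ℝ) ^ (E - m) := by
    refine Finset.sum_le_sum_of_subset_of_nonneg (fun m hm => ?_) fun _ _ _ => by positivity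
    have := (Finset.mem_filter.1 hm).2
    exact Finset.mem_range.2 (by omega)
  rw [Finset.sum_flip (fun g => (25 / 32 : ℝ) ^ g)] at h1
  have h2 := geom_le (ρ := 25 / 32) (by norm_num) (by norm_num) (E + 1)
  norm_num at h2
  linarith

/-- The abstract data of the rows. -/
structure Rows (R : Type) [Fintype R] (d : ℕ) (c : ℝ) : Type where
  T : R → ℕ
  V : R → ℕ → ℝ
  B : R → ℕ → ℝ
  hVB : ∀ ρ i, i < T ρ → V ρ (i + 1) = V ρ i + B ρ i ^ 2
  hV0 : ∀ ρ t, 0 ≤ V ρ t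
  hV1 : ∀ ρ t, t ≤ T ρ → V ρ t ≤ 1
  hd : ∀ t, ∑ ρ with t ≤ T ρ, V ρ t ≤ d
  h3 : ∀ ρ₀ i t, i < t → t ≤ T ρ₀ → B ρ₀ i ^ 2 ≤ V ρ₀ t * ∑ ρ with t ≤ T ρ, B ρ i ^ 2
  hB : ∀ i, ∑ ρ with i < T ρ, B ρ i ^ 2 ≤ c

namespace Rows

variable {R : Type} [Fintype R] {d : ℕ} {c : ℝ} (D : Rows R d c)

theorem tele (ρ : R) {a b : ℕ} (hab : a ≤ b) (hb : b ≤ D.T ρ) :
    D.V ρ b = D.V ρ a + ∑ i ∈ Finset.Ico a b, D.B ρ i ^ 2 := by
  induction b, hab using Nat.le_induction with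
  | base => simp
  | succ b hab ih =>
    rw [Finset.sum_Ico_succ_top hab, D.hVB ρ b (by omega), ih (by omega)]
    ring

theorem V_mono (ρ : R) {a b : ℕ} (hab : a ≤ b) (hb : b ≤ D.T ρ) : D.V ρ a ≤ D.V ρ b := by
  rw [D.tele ρ hab hb]
  exact le_add_of_nonneg_right (Finset.sum_nonneg fun _ _ => sq_nonneg _)

/-- The surviving mass between the times `a` and `b`. -/
noncomputable def φ (a b : ℕ) : ℝ := ∑ ρ with b ≤ D.T ρ, D.V ρ a

theorem φ_nonneg (a b : ℕ) : 0 ≤ D.φ a b := Finset.sum_nonneg fun _ _ => D.hV0 _ _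

theorem φ_mono {a a' b : ℕ} (h : a ≤ a') (h' : a' ≤ b) : D.φ a b ≤ D.φ a' b :=
  Finset.sum_le_sum fun ρ hρ => D.V_mono ρ h (h'.trans (Finset.mem_filter.1 hρ).2)

theorem φ_anti {a b b' : ℕ} (h : b ≤ b') : D.φ a b' ≤ D.φ a b :=
  Finset.sum_le_sum_of_subset_of_nonneg
    (fun _ hρ => Finset.mem_filter.2 ⟨Finset.mem_univ _, h.trans (Finset.mem_filter.1 hρ).2⟩)
    fun _ _ _ => D.hV0 _ _

theorem key_ineq (ρ₀ : R) {a k b : ℕ} (h1 : a ≤ k) (h2 : k ≤ b) (h3 : b ≤ D.T ρ₀) :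
    D.V ρ₀ k - D.V ρ₀ a ≤ D.V ρ₀ b * (D.φ k b - D.φ a b) := by
  have e1 : D.φ k b - D.φ a b = ∑ i ∈ Finset.Ico a k, ∑ ρ with b ≤ D.T ρ, D.B ρ i ^ 2 := by
    rw [Finset.sum_comm, φ, φ, ← Finset.sum_sub_distrib]
    refine Finset.sum_congr rfl fun ρ hρ => ?_
    rw [D.tele ρ h1 (h2.trans (Finset.mem_filter.1 hρ).2)]
    ring
  rw [e1, D.tele ρ₀ h1 (h2.trans h3), add_sub_cancel_left, Finset.mul_sum]
  refine Finset.sum_le_sum fun i hi => D.h3 ρ₀ i b ?_ h3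
  have := (Finset.mem_Ico.1 hi).2
  omega

/-- The start of the current cell of level `j`. -/
noncomputable def last (j : ℕ) : ℕ → ℕ
  | 0 => 0
  | t + 1 => if D.φ (last j t) (t + 1) < j / 4 then t + 1 else last j t

theorem last_le (j : ℕ) : ∀ t, D.last j t ≤ t
  | 0 => le_rfl
  | t + 1 => by
    have := last_le j t
    rw [last]
    split_ifs <;> omega

theorem last_mono (j : ℕ) : Monotone (D.last j) := by
  refine monotone_nat_of_le_succ fun t => ?_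
  have := D.last_le j t
  rw [last]
  split_ifs <;> omega

theorem last_eq (j : ℕ) {s : ℕ} : ∀ t, D.last j t ≤ s → s ≤ t → D.last j s = D.last j t
  | 0, _, h => by rw [Nat.le_zero.1 h]
  | t + 1, h1, h2 => by
    rcases h2.eq_or_lt with h | h
    · rw [h]
    · rw [last] at h1 ⊢
      split_ifs at h1 ⊢
      · omega
      · exact last_eq j t h1 (by omega)

theorem last_start (j t : ℕ) (h : D.last j (t + 1) = t + 1) :
    D.φ (D.last j t) (t + 1) < j / 4 := by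
  by_contra h1
  have := D.last_le j t
  rw [last, if_neg h1] at h
  omega

theorem last_stay (j t : ℕ) (h : D.last j (t + 1) ≠ t + 1) :
    (j : ℝ) / 4 ≤ D.φ (D.last j (t + 1)) (t + 1) := by
  rw [last] at h ⊢
  split_ifs at h ⊢ with h1
  · exact absurd rfl h
  · exact not_lt.1 h1

theorem last_zero : ∀ t, D.last 0 t = 0
  | 0 => rfl
  | t + 1 => by
    rw [last, if_neg, last_zero t]
    have := D.φ_nonneg (D.last 0 t) (t + 1)
    simpa using this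

open Classical in
/-- The end of an epoch. -/
noncomputable def e (α : R × ℕ) : ℕ :=
  Nat.findGreatest (fun t => D.V α.1 t ≤ (1 / 2) ^ α.2) (D.T α.1)

open Classical in
/-- The start of the enlarged epoch. -/
noncomputable def a0 (α : R × ℕ) : ℕ :=
  Nat.findGreatest (fun t => D.V α.1 t ≤ (1 / 2) ^ (α.2 + 2)) (D.T α.1)

/-- The level of an epoch. -/
noncomputable def lv (α : R × ℕ) : ℕ :=
  if (1 / 2) ^ (α.2 + 2) < D.V α.1 0 then 0 else ⌊4 * D.φ (D.a0 α) (D.e α)⌋₊ + 1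

/-- The anchor of an epoch. -/
noncomputable def β (α : R × ℕ) : ℕ := D.last (D.lv α) (D.e α)

def Valid (α : R × ℕ) : Prop :=
  ∃ t ≤ D.T α.1, (1 / 2) ^ (α.2 + 1) < D.V α.1 t ∧ D.V α.1 t ≤ (1 / 2) ^ α.2

theorem e_le (α : R × ℕ) : D.e α ≤ D.T α.1 := by
  classical
  exact Nat.findGreatest_le _

theorem a0_le (α : R × ℕ) : D.a0 α ≤ D.T α.1 := by
  classical
  exact Nat.findGreatest_le _

theorem le_e (α : R × ℕ) {t : ℕ} (h1 : t ≤ D.T α.1) (h2 : D.V α.1 t ≤ (1 / 2) ^ α.2) :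
    t ≤ D.e α := by
  classical
  exact Nat.le_findGreatest h1 h2

theorem V_e {α : R × ℕ} (h : D.Valid α) : D.V α.1 (D.e α) ≤ (1 / 2) ^ α.2 := by
  classical
  obtain ⟨t, h1, -, h2⟩ := h
  exact Nat.findGreatest_spec (P := fun t => D.V α.1 t ≤ (1 / 2) ^ α.2) h1 h2

theorem V_e' {α : R × ℕ} (h : D.Valid α) : (1 / 2) ^ (α.2 + 1) < D.V α.1 (D.e α) := by
  obtain ⟨t, h1, h2, h3⟩ := h
  exact h2.trans_le (D.V_mono _ (D.le_e α h1 h3) (D.e_le α))

theorem V_a0 {α : R × ℕ} (h : D.V α.1 0 ≤ (1 / 2) ^ (α.2 + 2)) :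
    D.V α.1 (D.a0 α) ≤ (1 / 2) ^ (α.2 + 2) := by
  classical
  exact Nat.findGreatest_spec (P := fun t => D.V α.1 t ≤ (1 / 2) ^ (α.2 + 2)) (Nat.zero_le _) h

theorem V_gt_a0 (α : R × ℕ) {t : ℕ} (h1 : D.a0 α < t) (h2 : t ≤ D.T α.1) :
    (1 / 2) ^ (α.2 + 2) < D.V α.1 t := by
  classical
  exact not_le.1 (Nat.findGreatest_is_greatest
    (P := fun t => D.V α.1 t ≤ (1 / 2) ^ (α.2 + 2)) h1 h2)

theorem half_succ_le (m : ℕ) : (1 / 2 : ℝ) ^ (m + 1) ≤ (1 / 2) ^ m :=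
  pow_le_pow_of_le_one (by norm_num) (by norm_num) (Nat.le_succ m)

theorem a0_lt_e {α : R × ℕ} (h : D.Valid α) (h0 : D.V α.1 0 ≤ (1 / 2) ^ (α.2 + 2)) :
    D.a0 α < D.e α := by
  by_contra h1
  have h2 := D.V_mono α.1 (not_lt.1 h1) (D.a0_le α)
  have h3 := D.V_a0 h0
  have h4 := D.V_e' h
  have h5 := half_succ_le (α.2 + 1)
  linarith

theorem β_le (α : R × ℕ) : D.β α ≤ D.e α := D.last_le _ _

theorem last_β (α : R × ℕ) : D.last (D.lv α) (D.β α) = D.β α :=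
  D.last_eq _ _ le_rfl (D.β_le α)

theorem lv_lt {α : R × ℕ} (h : D.Valid α) : D.lv α < 4 * d + 2 := by
  unfold lv
  split_ifs with h0
  · omega
  · have h1 := D.φ_mono (D.a0_lt_e h (not_lt.1 h0)).le le_rfl
    have h2 : D.φ (D.e α) (D.e α) ≤ d := D.hd _
    have h3 : ⌊4 * D.φ (D.a0 α) (D.e α)⌋₊ ≤ 4 * d := by
      apply Nat.floor_le_of_le
      push_cast
      linarith
    omega

theorem lv_spec {α : R × ℕ} (h0 : D.V α.1 0 ≤ (1 / 2) ^ (α.2 + 2)) :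
    D.φ (D.a0 α) (D.e α) < (D.lv α : ℝ) / 4 ∧ (D.lv α : ℝ) / 4 ≤ D.φ (D.a0 α) (D.e α) + 1 / 4 := by
  unfold lv
  rw [if_neg (not_lt.2 h0)]
  have h1 := Nat.lt_floor_add_one (4 * D.φ (D.a0 α) (D.e α))
  have h2 := Nat.floor_le (a := 4 * D.φ (D.a0 α) (D.e α))
    (mul_nonneg (by norm_num) (D.φ_nonneg _ _))
  push_cast
  constructor <;> linarith

theorem V_β {α : R × ℕ} (h : D.Valid α) : (1 / 2) ^ (α.2 + 2) < D.V α.1 (D.β α) := by
  have hT := (D.β_le α).trans (D.e_le α)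
  by_cases h0 : (1 / 2) ^ (α.2 + 2) < D.V α.1 0
  · exact h0.trans_le (D.V_mono _ (Nat.zero_le _) hT)
  have h0' := not_lt.1 h0
  refine D.V_gt_a0 α ?_ hT
  have h1 := D.a0_lt_e h h0'
  by_cases h2 : D.β α = D.e α
  · rw [h2]
    exact h1
  obtain ⟨k, hk⟩ : ∃ k, D.e α = k + 1 := ⟨D.e α - 1, by omega⟩
  have h3 := D.last_stay (D.lv α) k (by rw [← hk]; exact h2)
  rw [← hk] at h3
  by_contra h4
  have h5 : D.φ (D.β α) (D.e α) ≤ D.φ (D.a0 α) (D.e α) := D.φ_mono (not_lt.1 h4) h1.le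
  have h6 := (D.lv_spec h0').1
  have h7 : D.last (D.lv α) (D.e α) = D.β α := rfl
  rw [h7] at h3
  linarith

theorem cover {α : R × ℕ} (h : D.Valid α) {t : ℕ} (h1 : (1 / 2) ^ (α.2 + 1) < D.V α.1 t)
    (h2 : t < D.β α) : D.last (D.lv α) (D.β α - 1) = D.last (D.lv α) t := by
  refine (D.last_eq _ _ ?_ (by omega)).symm
  by_contra h3
  have hT := (D.β_le α).trans (D.e_le α)
  by_cases h0 : (1 / 2) ^ (α.2 + 2) < D.V α.1 0
  · have : D.lv α = 0 := by unfold lv; rw [if_pos h0]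
    rw [this, D.last_zero] at h3
    omega
  have h0' := not_lt.1 h0
  obtain ⟨k, hk⟩ : ∃ k, D.β α = k + 1 := ⟨D.β α - 1, by omega⟩
  have hk' : D.β α - 1 = k := by omega
  rw [hk'] at h3
  have h4 := D.last_start (D.lv α) k (by rw [← hk]; exact D.last_β α)
  rw [← hk] at h4
  set κ := D.last (D.lv α) k with hκ
  have hκk : κ ≤ k := D.last_le _ _
  have h5 : (1 / 2) ^ (α.2 + 1) < D.V α.1 κ := h1.trans_le (D.V_mono _ (by omega) (by omega))
  have h6 := D.V_a0 h0'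
  have hp : (1 / 2 : ℝ) ^ (α.2 + 2) = (1 / 2) ^ α.2 / 4 := by ring
  have hp' : (1 / 2 : ℝ) ^ (α.2 + 1) = (1 / 2) ^ α.2 / 2 := by ring
  have hpos : 0 < (1 / 2 : ℝ) ^ α.2 := by positivity
  have h7 : D.a0 α ≤ κ := by
    by_contra h8
    have := D.V_mono α.1 (not_le.1 h8).le (D.a0_le α)
    linarith
  have h8 := D.key_ineq α.1 h7 (by omega : κ ≤ D.β α) hT
  have h9 : D.φ (D.a0 α) (D.e α) ≤ D.φ (D.a0 α) (D.β α) := D.φ_anti (D.β_le α)
  have h10 := (D.lv_spec h0').2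
  have h11 : D.V α.1 (D.β α) ≤ (1 / 2) ^ α.2 :=
    (D.V_mono _ (D.β_le α) (D.e_le α)).trans (D.V_e h)
  have h12 : D.V α.1 (D.β α) * (D.φ κ (D.β α) - D.φ (D.a0 α) (D.β α))
      ≤ D.V α.1 (D.β α) * (1 / 4) := mul_le_mul_of_nonneg_left (by linarith) (D.hV0 _ _)
  linarith

variable (N : ℕ)

/-- The coefficient vector of an epoch. -/
noncomputable def M (α : R × ℕ) : Fin N → ℝ :=
  fun i => if (i : ℕ) < D.T α.1 ∧ D.V α.1 (i + 1) ≤ (1 / 2) ^ α.2 then D.B α.1 i else 0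

/-- The gap class of an entry. -/
noncomputable def lev (α : R × ℕ) : Fin N → ℕ := fun i => ep (D.V α.1 (i + 1)) - α.2

theorem V_pos (ρ : R) {i : ℕ} (hi : i < D.T ρ) (hB : D.B ρ i ≠ 0) : 0 < D.V ρ (i + 1) := by
  rw [D.hVB ρ i hi]
  have := D.hV0 ρ i
  positivity

theorem small_mass (ρ : R) {y : ℝ} (hy : 0 ≤ y) (n : ℕ) :
    ∑ i ∈ Finset.range n, (if i < D.T ρ ∧ D.V ρ (i + 1) ≤ y then D.B ρ i ^ 2 else 0) ≤ y ∧
    (n ≤ D.T ρ → ∑ i ∈ Finset.range n,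
      (if i < D.T ρ ∧ D.V ρ (i + 1) ≤ y then D.B ρ i ^ 2 else 0) ≤ D.V ρ n) := by
  induction n with
  | zero => simp [hy, D.hV0]
  | succ n ih =>
    rw [Finset.sum_range_succ]
    split_ifs with h
    · have h1 := ih.2 h.1.le
      have h2 := D.hVB ρ n h.1
      exact ⟨by linarith [h.2], fun _ => by linarith⟩
    · refine ⟨by linarith [ih.1], fun h1 => ?_⟩
      have h2 := ih.2 (by omega)
      have h3 := D.V_mono ρ (Nat.le_succ n) h1
      linarith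

theorem class_weight (α : R × ℕ) (g : ℕ) :
    ∑ i, (if D.lev N α i = g then D.M N α i ^ 2 else 0) ≤ (1 / 2) ^ α.2 * (1 / 2) ^ g := by
  rw [← pow_add]
  refine le_trans ?_ (D.small_mass α.1 (y := (1 / 2) ^ (α.2 + g)) (by positivity) N).1
  rw [← Fin.sum_univ_eq_sum_range (fun i => if i < D.T α.1 ∧
    D.V α.1 (i + 1) ≤ (1 / 2) ^ (α.2 + g) then D.B α.1 i ^ 2 else 0)]
  refine Finset.sum_le_sum fun i _ => ?_
  have h0 : (0 : ℝ) ≤ if (i : ℕ) < D.T α.1 ∧ D.V α.1 (i + 1) ≤ (1 / 2) ^ (α.2 + g)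
      then D.B α.1 i ^ 2 else 0 := by
    split_ifs
    · positivity
    · exact le_rfl
  by_cases h1 : D.lev N α i = g
  swap
  · rwa [if_neg h1]
  rw [if_pos h1]
  unfold M
  by_cases h2 : (i : ℕ) < D.T α.1 ∧ D.V α.1 (i + 1) ≤ (1 / 2) ^ α.2
  swap
  · rw [if_neg h2]
    simpa using h0
  rw [if_pos h2]
  by_cases h3 : D.B α.1 i = 0
  · rw [h3]
    simp
  have h4 := D.V_pos α.1 h2.1 h3
  have h5 := D.hV1 α.1 (i + 1) h2.1
  have h6 := le_ep h4 h5 h2.2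
  have h7 : ep (D.V α.1 (i + 1)) = α.2 + g := by
    unfold lev at h1
    omega
  rw [if_pos ⟨h2.1, by rw [← h7]; exact (ep_spec h4 h5).2⟩]

theorem load_le (U : Finset (R × ℕ)) (n : ℕ) (hU : U ⊆ Finset.univ ×ˢ Finset.range n)
    (i : Fin N) : ∑ α ∈ U, 10 * (25 / 32 : ℝ) ^ D.lev N α i * D.M N α i ^ 2 ≤ 50 * c := by
  refine (Finset.sum_le_sum_of_subset_of_nonneg hU fun _ _ _ => by positivity).trans ?_
  rw [Finset.sum_product]
  have h1 := D.hB i
  rw [Finset.sum_filter] at h1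
  refine le_trans ?_ (mul_le_mul_of_nonneg_left h1 (by norm_num : (0 : ℝ) ≤ 50))
  rw [Finset.mul_sum]
  refine Finset.sum_le_sum fun ρ _ => ?_
  by_cases h2 : (i : ℕ) < D.T ρ
  swap
  · simp [M, h2]
  rw [if_pos h2]
  by_cases h3 : D.B ρ i = 0
  · simp [M, h3]
  have h4 := D.V_pos ρ h2 h3
  have h5 := D.hV1 ρ (i + 1) h2
  have h6 : ∀ m ∈ Finset.range n, 10 * (25 / 32 : ℝ) ^ D.lev N (ρ, m) i * D.M N (ρ, m) i ^ 2
      ≤ 10 * D.B ρ i ^ 2 * (if m ≤ ep (D.V ρ (i + 1))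
        then (25 / 32 : ℝ) ^ (ep (D.V ρ (i + 1)) - m) else 0) := by
    intro m _
    simp only [M, lev]
    by_cases h7 : D.V ρ (i + 1) ≤ (1 / 2) ^ m
    · rw [if_pos ⟨h2, h7⟩, if_pos (le_ep h4 h5 h7)]
      exact le_of_eq (by ring)
    · rw [if_neg fun h => h7 h.2]
      split_ifs
      · simp only [ne_eq, OfNat.ofNat_ne_zero, not_false_eq_true, zero_pow, mul_zero]
        positivity
      · simp
  refine (Finset.sum_le_sum h6).trans ?_
  rw [← Finset.mul_sum]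
  have h8 := mul_le_mul_of_nonneg_left (sum_gap_le n (ep (D.V ρ (i + 1))))
    (by positivity : 0 ≤ 10 * D.B ρ i ^ 2)
  linarith

theorem weight_le (A : Finset (R × ℕ)) (n t : ℕ) (hA : A ⊆ Finset.univ ×ˢ Finset.range n)
    (h : ∀ α ∈ A, t ≤ D.T α.1 ∧ (1 / 2) ^ α.2 ≤ 4 * D.V α.1 t) :
    ∑ α ∈ A, (1 / 2 : ℝ) ^ α.2 ≤ 8 * d := by
  have h1 : ∑ α ∈ A, (1 / 2 : ℝ) ^ α.2 = ∑ α ∈ A, (if t ≤ D.T α.1 then
      (if (1 / 2 : ℝ) ^ α.2 ≤ 4 * D.V α.1 t then (1 / 2 : ℝ) ^ α.2 else 0) else 0) :=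
    Finset.sum_congr rfl fun α hα => by rw [if_pos (h α hα).1, if_pos (h α hα).2]
  rw [h1]
  refine (Finset.sum_le_sum_of_subset_of_nonneg hA fun _ _ _ => ?_).trans ?_
  · split_ifs
    · positivity
    · exact le_rfl
    · exact le_rfl
  rw [Finset.sum_product]
  have h2 := D.hd t
  rw [Finset.sum_filter] at h2
  refine le_trans ?_ (mul_le_mul_of_nonneg_left h2 (by norm_num : (0 : ℝ) ≤ 8))
  rw [Finset.mul_sum]
  refine Finset.sum_le_sum fun ρ _ => ?_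
  by_cases h3 : t ≤ D.T ρ
  · simp only [if_pos h3]
    have := sum_half_le n (4 * D.V ρ t) (mul_nonneg (by norm_num) (D.hV0 ρ t))
    linarith
  · simp [h3]

theorem lin_M {α : R × ℕ} (h : D.Valid α) {t : ℕ} (ht : t ≤ D.e α) :
    win (D.M N α) 0 t = win (fun i : Fin N => D.B α.1 i) 0 t := by
  ext i
  unfold win M
  split_ifs with h1 h2
  · rfl
  · exfalso
    have h3 := D.e_le α
    exact h2 ⟨by omega, (D.V_mono _ (by omega) h3).trans (D.V_e h)⟩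
  · rfl

/-- All the partial sums of the living rows are controlled with a small load. -/
theorem anchor_main : Ctrl (N := N) (fun _ => 100 * c)
    (fun x => ∀ t ≤ N, ∑ ρ with t ≤ D.T ρ, lin (win (fun i : Fin N => D.B ρ i) 0 t) x ^ 2
      ≤ 40000 * (12 * d + 2)) := by
  classical
  obtain ⟨n, hn⟩ : ∃ n, ∀ ρ, ∀ t ≤ N, ep (D.V ρ t) < n := by
    refine ⟨(Finset.univ.sup fun ρ => (Finset.range (N + 1)).sup fun t => ep (D.V ρ t)) + 1,
      fun ρ t ht => ?_⟩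
    exact Nat.lt_succ_of_le (le_trans
      (Finset.le_sup (f := fun t => ep (D.V ρ t)) (Finset.mem_range.2 (by omega)))
      (Finset.le_sup (f := fun ρ => (Finset.range (N + 1)).sup fun t => ep (D.V ρ t))
        (Finset.mem_univ ρ)))
  set U : Finset (R × ℕ) := (Finset.univ ×ˢ Finset.range n).filter D.Valid with hU
  have hUs : U ⊆ Finset.univ ×ˢ Finset.range n := Finset.filter_subset _ _
  have hUv : ∀ α ∈ U, D.Valid α := fun α hα => (Finset.mem_filter.1 hα).2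
  set AR : ℕ → Finset (R × ℕ) := fun t => U.filter fun α => D.β α ≤ t ∧ t ≤ D.e α with hAR
  set AL : ℕ → Finset (R × ℕ) := fun t => U.filter fun α => (1 / 2) ^ (α.2 + 1) < D.V α.1 t ∧
    t < D.β α ∧ D.last (D.lv α) (D.β α - 1) = D.last (D.lv α) t with hAL
  have cR := lemK U AR (D.M N) (D.lev N) (fun α => (1 / 2) ^ α.2) D.lv D.β D.last (4 * d + 2)
    (fun t => Finset.filter_subset _ _) (fun _ _ => by positivity)
    (fun α hα => D.lv_lt (hUv α hα))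
    (fun t α hα => by
      obtain ⟨-, h1, h2⟩ := Finset.mem_filter.1 hα
      exact (D.last_eq _ _ h1 h2).symm)
    (fun s t hst j k => by
      by_cases h : k ≤ s
      · right
        intro α hα _ h2
        obtain ⟨h3, h4, h5⟩ := Finset.mem_filter.1 hα
        exact Finset.mem_filter.2 ⟨h3, by omega, by omega⟩
      · left
        intro α hα _ h2
        obtain ⟨h3, h4, h5⟩ := Finset.mem_filter.1 hα
        omega)
    (fun α _ g => D.class_weight N α g)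
  have cL := lemK U AL (D.M N) (D.lev N) (fun α => (1 / 2) ^ α.2) D.lv
    (fun α => D.last (D.lv α) (D.β α - 1)) D.last (4 * d + 2)
    (fun t => Finset.filter_subset _ _) (fun _ _ => by positivity)
    (fun α hα => D.lv_lt (hUv α hα))
    (fun t α hα => (Finset.mem_filter.1 hα).2.2.2)
    (fun s t hst j k => by
      by_cases h : D.last j t = k
      · left
        intro α hα h1 h2
        obtain ⟨h3, h4, h5, h6⟩ := Finset.mem_filter.1 hα
        have h7 : t < D.β α := by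
          by_contra h8
          have h9 := D.last_mono (D.lv α) (not_lt.1 h8)
          have h10 := D.last_le (D.lv α) (D.β α - 1)
          rw [D.last_β, h1, h] at h9
          omega
        have h11 := (D.β_le α).trans (D.e_le α)
        refine Finset.mem_filter.2 ⟨h3, h4.trans_le (D.V_mono _ hst (by omega)), h7, ?_⟩
        rw [h2, h1, h]
      · right
        intro α hα h1 h2
        obtain ⟨h3, h4, h5, h6⟩ := Finset.mem_filter.1 hα
        exact absurd (by rw [← h1, ← h6]; exact h2) h)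
    (fun α _ g => D.class_weight N α g)
  refine (cR.and cL).mono (fun i => ?_) ?_
  · have := D.load_le N U n hUs i
    linarith
  rintro x ⟨hR, hL⟩ t ht
  have wR : ∑ α ∈ AR t, (1 / 2 : ℝ) ^ α.2 ≤ 8 * d := by
    refine D.weight_le (AR t) n t ((Finset.filter_subset _ _).trans hUs) fun α hα => ?_
    obtain ⟨h1, h2, h3⟩ := Finset.mem_filter.1 hα
    have h4 := h3.trans (D.e_le α)
    have h5 := (D.V_β (hUv α h1)).trans_le (D.V_mono _ h2 h4)
    have hp : (1 / 2 : ℝ) ^ (α.2 + 2) = (1 / 2) ^ α.2 / 4 := by ring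
    exact ⟨h4, by linarith⟩
  have wL : ∑ α ∈ AL t, (1 / 2 : ℝ) ^ α.2 ≤ 8 * d := by
    refine D.weight_le (AL t) n t ((Finset.filter_subset _ _).trans hUs) fun α hα => ?_
    obtain ⟨h1, h2, h3, -⟩ := Finset.mem_filter.1 hα
    have h4 := (D.β_le α).trans (D.e_le α)
    have hp : (1 / 2 : ℝ) ^ (α.2 + 1) = (1 / 2) ^ α.2 / 2 := by ring
    have := D.hV0 α.1 t
    exact ⟨by omega, by linarith⟩
  have hR' := hR t ht
  have hL' := hL t ht
  push_cast at hR' hL'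
  set F : R × ℕ → ℝ := fun α => lin (win (D.M N α) 0 t) x ^ 2 with hF
  have hF0 : ∀ α, 0 ≤ F α := fun _ => sq_nonneg _
  set S : Finset R := Finset.univ.filter fun ρ => t ≤ D.T ρ ∧ 0 < D.V ρ t with hS
  set f : R → R × ℕ := fun ρ => (ρ, ep (D.V ρ t)) with hf
  have hval : ∀ ρ ∈ S, D.Valid (f ρ) ∧ t ≤ D.e (f ρ) ∧ f ρ ∈ AR t ∪ AL t := by
    intro ρ hρ
    obtain ⟨-, h1, h2⟩ := Finset.mem_filter.1 hρ
    have h3 := ep_spec h2 (D.hV1 ρ t h1)
    have h4 : D.Valid (f ρ) := ⟨t, h1, h3⟩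
    have h5 : t ≤ D.e (f ρ) := D.le_e (f ρ) h1 h3.2
    have h6 : f ρ ∈ U := Finset.mem_filter.2 ⟨Finset.mem_product.2
      ⟨Finset.mem_univ _, Finset.mem_range.2 (hn ρ t ht)⟩, h4⟩
    refine ⟨h4, h5, Finset.mem_union.2 ?_⟩
    by_cases h7 : D.β (f ρ) ≤ t
    · exact Or.inl (Finset.mem_filter.2 ⟨h6, h7, h5⟩)
    · exact Or.inr (Finset.mem_filter.2 ⟨h6, h3.1, not_le.1 h7, D.cover h4 h3.1 (not_le.1 h7)⟩)
  have e1 : ∑ ρ with t ≤ D.T ρ, lin (win (fun i : Fin N => D.B ρ i) 0 t) x ^ 2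
      = ∑ ρ ∈ S, F (f ρ) := by
    symm
    refine Finset.sum_subset_zero_on_sdiff (fun ρ hρ => ?_) (fun ρ hρ => ?_) (fun ρ hρ => ?_)
    · exact Finset.mem_filter.2 ⟨Finset.mem_univ _, (Finset.mem_filter.1 hρ).2.1⟩
    · obtain ⟨h1, h2⟩ := Finset.mem_sdiff.1 hρ
      have h3 := (Finset.mem_filter.1 h1).2
      have h4 : ¬ 0 < D.V ρ t := fun h => h2 (Finset.mem_filter.2 ⟨Finset.mem_univ _, h3, h⟩)
      have h5 : win (fun i : Fin N => D.B ρ i) 0 t = 0 := by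
        ext i
        unfold win
        split_ifs with h6
        · by_contra h7
          exact h4 ((D.V_pos ρ (by omega) h7).trans_le (D.V_mono ρ (by omega) h3))
        · rfl
      rw [h5, lin_zero]
      simp
    · simp only [hF]
      rw [D.lin_M N (hval ρ hρ).1 (hval ρ hρ).2.1]
  have e2 : ∑ ρ ∈ S, F (f ρ) = ∑ α ∈ S.image f, F α :=
    (Finset.sum_image fun a _ b _ h => congrArg Prod.fst h).symm
  have h1 : ∑ α ∈ S.image f, F α ≤ ∑ α ∈ AR t ∪ AL t, F α := by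
    refine Finset.sum_le_sum_of_subset_of_nonneg (fun α hα => ?_) fun _ _ _ => hF0 _
    obtain ⟨ρ, hρ, rfl⟩ := Finset.mem_image.1 hα
    exact (hval ρ hρ).2.2
  have h2 : ∑ α ∈ AR t ∪ AL t, F α + ∑ α ∈ AR t ∩ AL t, F α
      = ∑ α ∈ AR t, F α + ∑ α ∈ AL t, F α := Finset.sum_union_inter
  have h3 : 0 ≤ ∑ α ∈ AR t ∩ AL t, F α := Finset.sum_nonneg fun _ _ => hF0 _
  rw [e1, e2]
  linarith

end Rows

end Crest.Agent.R239
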