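import Mathlib
import Crest.Agent.R239.Anchor

/-!
# The contracting dynamics with feedback

Author: helper42.
-/

set_option autoImplicit false
open scoped RealInnerProductSpace

namespace Crest.Agent.R239

theorem exists_cf {n : ℝ} (h1 : n ≤ 1) :
    ∃ f : ℝ, 0 ≤ f ∧ f ≤ 1 / 4000000 ∧ 2 * f - f ^ 2 * n = 1 / 4000000 := by
  have h2 : 0 ≤ 1 - n / 4000000 := by linarith
  have h3 := Real.sq_sqrt h2
  have h4 := Real.sqrt_nonneg (1 - n / 4000000)
  set r := √(1 - n / 4000000) with hr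
  refine ⟨1 / 4000000 / (1 + r), by positivity, ?_, ?_⟩
  · exact div_le_self (by norm_num) (by linarith)
  · have h5 : n = 4000000 * (1 - r ^ 2) := by linarith
    rw [h5]
    field_simp
    ring

theorem exists_back {E : Type} (T : ℕ) (a : E) (P : ℕ → E → E) :
    ∃ g : ℕ → E, g T = a ∧ ∀ t < T, g t = P t (g (t + 1)) := by
  let G : ℕ → E := fun n => Nat.rec a (fun n y => P (T - (n + 1)) y) n
  refine ⟨fun t => G (T - t), by simp [G], fun t ht => ?_⟩
  have e1 : T - t = (T - (t + 1)) + 1 := by omega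
  have e2 : T - (T - (t + 1) + 1) = t := by omega
  beta_reduce
  rw [e1]
  change P (T - (T - (t + 1) + 1)) (G (T - (t + 1))) = _
  rw [e2]

variable {d N : ℕ}

/-- The rank one contraction. -/
noncomputable def Pm (f : ℝ) (w x : EuclideanSpace ℝ (Fin d)) : EuclideanSpace ℝ (Fin d) :=
  x - (f * ⟪w, x⟫) • w

theorem Pm_symm (f : ℝ) (w x y : EuclideanSpace ℝ (Fin d)) : ⟪Pm f w x, y⟫ = ⟪x, Pm f w y⟫ := by
  unfold Pm
  rw [inner_sub_left, inner_sub_right, real_inner_smul_left, real_inner_smul_right,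
    real_inner_comm w x]
  ring

theorem Pm_norm {f c : ℝ} {w : EuclideanSpace ℝ (Fin d)} (h : 2 * f - f ^ 2 * ‖w‖ ^ 2 = c)
    (x : EuclideanSpace ℝ (Fin d)) : ‖Pm f w x‖ ^ 2 = ‖x‖ ^ 2 - c * ⟪w, x⟫ ^ 2 := by
  unfold Pm
  rw [norm_sub_sq_real, real_inner_smul_right, norm_smul, mul_pow, Real.norm_eq_abs, sq_abs,
    real_inner_comm w x, ← h]
  ring

/-- Extension of a coordinate vector by zero. -/
def ext0 (x : Fin N → ℝ) (k : ℕ) : ℝ := if h : k < N then x ⟨k, h⟩ else 0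

/-- The state of the dynamics driven by the noise `x`. -/
noncomputable def Xs (f : ℕ → ℝ) (w : ℕ → EuclideanSpace ℝ (Fin d)) (x : Fin N → ℝ) :
    ℕ → EuclideanSpace ℝ (Fin d)
  | 0 => 0
  | k + 1 => Pm (f k) (w k) (Xs f w x k) + ext0 x k • w k

theorem Xs_congr (f : ℕ → ℝ) (w : ℕ → EuclideanSpace ℝ (Fin d)) {x y : Fin N → ℝ} :
    ∀ k, (∀ i : Fin N, (i : ℕ) < k → x i = y i) → Xs f w x k = Xs f w y k
  | 0, _ => rfl
  | k + 1, h => by
    have e : ext0 x k = ext0 y k := by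
      unfold ext0
      split_ifs with hk
      · exact h ⟨k, hk⟩ (Nat.lt_succ_self k)
      · rfl
    rw [Xs, Xs, Xs_congr f w k fun i hi => h i (by omega), e]

theorem lin_win_succ (m x : Fin N → ℝ) {t : ℕ} (ht : t < N) :
    lin (win m 0 (t + 1)) x = lin (win m 0 t) x + m ⟨t, ht⟩ * x ⟨t, ht⟩ := by
  rw [lin_win_add m x (Nat.zero_le t) (Nat.le_succ t)]
  congr 1
  unfold lin
  rw [Finset.sum_eq_single ⟨t, ht⟩]
  · unfold win
    rw [if_pos ⟨le_rfl, Nat.lt_succ_self t⟩]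
  · intro b _ hb
    unfold win
    rw [if_neg, zero_mul]
    intro h
    exact hb (Fin.ext (by simp only; omega))
  · intro h
    exact absurd (Finset.mem_univ _) h

theorem nsq_win_eq (B : ℕ → ℝ) {t : ℕ} (ht : t ≤ N) :
    nsq (win (fun i : Fin N => B i) 0 t) = ∑ i ∈ Finset.Ico 0 t, B i ^ 2 := by
  unfold nsq win
  have e : ∀ i : Fin N, (if 0 ≤ (i : ℕ) ∧ (i : ℕ) < t then B i else 0) ^ 2
      = (fun i : ℕ => if i < t then B i ^ 2 else 0) i := by
    intro i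
    by_cases h : (i : ℕ) < t <;> simp [h]
  simp_rw [e]
  rw [Fin.sum_univ_eq_sum_range (fun i : ℕ => if i < t then B i ^ 2 else 0) N, ← Finset.sum_filter]
  congr 1
  ext i
  simp only [Finset.mem_filter, Finset.mem_range, Finset.mem_Ico]
  omega

/-- The lifetime of a row. -/
def Tm : Fin N ⊕ Fin d → ℕ := Sum.elim (fun τ => (τ : ℕ)) (fun _ => N)

theorem Tm_le (ρ : Fin N ⊕ Fin d) : Tm ρ ≤ N := by
  rcases ρ with τ | e
  · exact τ.2.le
  · exact le_rfl

theorem filter_Tm {t : ℕ} (ht : t < N) :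
    (Finset.univ.filter fun ρ : Fin N ⊕ Fin d => t ≤ Tm ρ)
      = insert (Sum.inl ⟨t, ht⟩) (Finset.univ.filter fun ρ : Fin N ⊕ Fin d => t + 1 ≤ Tm ρ) := by
  ext ρ
  rcases ρ with τ | e
  · simp only [Finset.mem_filter, Finset.mem_univ, true_and, Finset.mem_insert, Tm, Sum.elim_inl,
      Sum.inl.injEq, Fin.ext_iff]
    omega
  · simp only [Finset.mem_filter, Finset.mem_univ, true_and, Finset.mem_insert, Tm, Sum.elim_inr,
      reduceCtorEq, false_or]
    omega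

section Main

variable (f : ℕ → ℝ) (w : ℕ → EuclideanSpace ℝ (Fin d))
  (g : Fin N ⊕ Fin d → ℕ → EuclideanSpace ℝ (Fin d))
  (hf : ∀ k, 2 * f k - f k ^ 2 * ‖w k‖ ^ 2 = 1 / 4000000)
  (hg1 : ∀ τ : Fin N, g (Sum.inl τ) τ = (1 / 2000 : ℝ) • w τ)
  (hg2 : ∀ e : Fin d, g (Sum.inr e) N = EuclideanSpace.single e 1)
  (hg3 : ∀ ρ, ∀ t < Tm ρ, g ρ t = Pm (f t) (w t) (g ρ (t + 1)))

include hf hg1 hg2 hg3 in
theorem parseval (n : ℕ) : ∀ t, t + n = N → ∀ x : EuclideanSpace ℝ (Fin d),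
    ∑ ρ with t ≤ Tm ρ, ⟪g ρ t, x⟫ ^ 2 = ‖x‖ ^ 2 := by
  induction n with
  | zero =>
    intro t ht x
    obtain rfl : t = N := ht
    rw [Finset.sum_filter, Fintype.sum_sum_type, EuclideanSpace.real_norm_sq_eq]
    have e1 : ∀ τ : Fin t, (if t ≤ Tm (Sum.inl τ : Fin t ⊕ Fin d)
        then ⟪g (Sum.inl τ) t, x⟫ ^ 2 else 0) = 0 := fun τ => if_neg (not_le.2 τ.2)
    have e2 : ∀ e : Fin d, (if t ≤ Tm (Sum.inr e : Fin t ⊕ Fin d)
        then ⟪g (Sum.inr e) t, x⟫ ^ 2 else 0) = x e ^ 2 := by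
      intro e
      rw [if_pos (show t ≤ Tm (Sum.inr e : Fin t ⊕ Fin d) from le_refl t), hg2,
        EuclideanSpace.inner_single_left]
      simp
    simp [e1, e2]
  | succ n ih =>
    intro t ht x
    have htN : t < N := by omega
    rw [filter_Tm htN, Finset.sum_insert (by simp [Tm])]
    have e1 : ∑ ρ with t + 1 ≤ Tm ρ, ⟪g ρ t, x⟫ ^ 2
        = ∑ ρ with t + 1 ≤ Tm ρ, ⟪g ρ (t + 1), Pm (f t) (w t) x⟫ ^ 2 := by
      refine Finset.sum_congr rfl fun ρ hρ => ?_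
      rw [hg3 ρ t (Finset.mem_filter.1 hρ).2, Pm_symm]
    rw [e1, ih (t + 1) (by omega), Pm_norm (hf t), hg1 ⟨t, htN⟩, real_inner_smul_left]
    ring

include hg3 in
theorem sigma_eq (ρ : Fin N ⊕ Fin d) (x : Fin N → ℝ) : ∀ t, t ≤ Tm ρ →
    lin (win (fun i : Fin N => 1 / 2000 * ⟪g ρ (i + 1), w i⟫) 0 t) x
      = 1 / 2000 * ⟪g ρ t, Xs f w x t⟫
  | 0, _ => by
    rw [win_empty _ le_rfl, lin_zero, Xs, inner_zero_right, mul_zero]
  | t + 1, ht => by
    have htN : t < N := lt_of_lt_of_le ht (Tm_le ρ)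
    rw [lin_win_succ _ _ htN, sigma_eq ρ x t (by omega), Xs, inner_add_right, ← Pm_symm,
      ← hg3 ρ t ht, real_inner_smul_right, ext0, dif_pos htN]
    ring

include hf hg1 hg2 hg3 in
theorem parseval' {t : ℕ} (ht : t ≤ N) (x : EuclideanSpace ℝ (Fin d)) :
    ∑ ρ with t ≤ Tm ρ, ⟪g ρ t, x⟫ ^ 2 = ‖x‖ ^ 2 :=
  parseval f w g hf hg1 hg2 hg3 (N - t) t (by omega) x

theorem filter_Tm_empty {t : ℕ} (ht : N < t) :
    (Finset.univ.filter fun ρ : Fin N ⊕ Fin d => t ≤ Tm ρ) = ∅ :=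
  Finset.filter_eq_empty_iff.2 fun ρ _ h => absurd (h.trans (Tm_le ρ)) (not_le.2 ht)

/-- The rows of the dynamics. -/
noncomputable def rows (hw : ∀ k, ‖w k‖ ≤ 1) : Rows (Fin N ⊕ Fin d) d (1 / 4000000) where
  T := Tm
  V := fun ρ t => ‖g ρ t‖ ^ 2
  B := fun ρ i => 1 / 2000 * ⟪g ρ (i + 1), w i⟫
  hVB := fun ρ i hi => by
    rw [hg3 ρ i hi, Pm_norm (hf i), real_inner_comm]
    ring
  hV0 := fun _ _ => sq_nonneg _
  hV1 := fun ρ t ht => by
    have h1 := parseval' f w g hf hg1 hg2 hg3 (ht.trans (Tm_le ρ)) (g ρ t)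
    have h2 : ⟪g ρ t, g ρ t⟫ ^ 2 ≤ ∑ ρ' with t ≤ Tm ρ', ⟪g ρ' t, g ρ t⟫ ^ 2 :=
      Finset.single_le_sum (f := fun ρ' => ⟪g ρ' t, g ρ t⟫ ^ 2) (fun _ _ => sq_nonneg _)
        (Finset.mem_filter.2 ⟨Finset.mem_univ _, ht⟩)
    rw [h1, real_inner_self_eq_norm_sq] at h2
    nlinarith [sq_nonneg (‖g ρ t‖ ^ 2 - 1)]
  hd := fun t => by
    rcases le_or_gt t N with ht | ht
    · have e1 : ∀ ρ, ‖g ρ t‖ ^ 2 = ∑ e, ⟪g ρ t, EuclideanSpace.single e (1 : ℝ)⟫ ^ 2 := by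
        intro ρ
        rw [EuclideanSpace.real_norm_sq_eq]
        refine Finset.sum_congr rfl fun e _ => ?_
        rw [EuclideanSpace.inner_single_right]
        simp
      simp_rw [e1]
      rw [Finset.sum_comm]
      simp_rw [parseval' f w g hf hg1 hg2 hg3 ht]
      simp
    · rw [filter_Tm_empty ht]
      simp
  h3 := fun ρ₀ i t hi ht => by
    have htN : t ≤ N := ht.trans (Tm_le ρ₀)
    have hiN : i < N := by omega
    set y := Xs f w (Pi.single (⟨i, hiN⟩ : Fin N) (1 : ℝ)) t with hy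
    have e1 : ∀ ρ, t ≤ Tm ρ → 1 / 2000 * ⟪g ρ (i + 1), w i⟫ = 1 / 2000 * ⟪g ρ t, y⟫ := by
      intro ρ hρ
      rw [hy, ← sigma_eq f w g hg3 ρ _ t hρ, lin_single, win, if_pos ⟨Nat.zero_le _, hi⟩]
    have e2 : ∑ ρ with t ≤ Tm ρ, (1 / 2000 * ⟪g ρ (i + 1), w i⟫) ^ 2
        = (1 / 2000) ^ 2 * ‖y‖ ^ 2 := by
      rw [← parseval' f w g hf hg1 hg2 hg3 htN y, Finset.mul_sum]
      refine Finset.sum_congr rfl fun ρ hρ => ?_
      rw [e1 ρ (Finset.mem_filter.1 hρ).2, mul_pow]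
    rw [e2, e1 ρ₀ ht]
    have h1 := real_inner_mul_inner_self_le (g ρ₀ t) y
    rw [real_inner_self_eq_norm_sq, real_inner_self_eq_norm_sq] at h1
    nlinarith
  hB := fun i => by
    rcases le_or_gt (i + 1) N with ht | ht
    · have h1 := parseval' f w g hf hg1 hg2 hg3 ht (w i)
      have h2 : ‖w i‖ ^ 2 ≤ 1 := pow_le_one₀ (norm_nonneg _) (hw i)
      have e1 : ∑ ρ with i < Tm ρ, (1 / 2000 * ⟪g ρ (i + 1), w i⟫) ^ 2
          = (1 / 2000) ^ 2 * ∑ ρ with i + 1 ≤ Tm ρ, ⟪g ρ (i + 1), w i⟫ ^ 2 := by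
        rw [Finset.mul_sum]
        exact Finset.sum_congr rfl fun ρ _ => mul_pow _ _ _
      rw [e1, h1]
      linarith
    · have := filter_Tm_empty (d := d) ht
      have e1 : (Finset.univ.filter fun ρ : Fin N ⊕ Fin d => i < Tm ρ) = ∅ := this
      rw [e1]
      simp

include hf hg1 hg2 hg3 in
theorem ctrl_main (hw : ∀ k, ‖w k‖ ≤ 1) : Ctrl (N := N) (fun _ => 2)
    (fun x => (∀ t ≤ N, 1 / 4000000 * ‖Xs f w x t‖ ^ 2 ≤ 40000 * (12 * d + 2)) ∧
      ∀ k < N, (1 / 4000000 * ⟪w k, Xs f w x k⟫) ^ 2 ≤ 1 / 4000000) := by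
  set D := rows f w g hf hg1 hg2 hg3 hw with hD
  have c1 := D.anchor_main N
  let c : Fin N → Con N := fun k => ⟨Unit, {()},
    fun _ => win (fun i : Fin N => D.B (Sum.inl k) i) 0 k, 1 / 4000000, 1 / 4000000⟩
  have hc : ∀ k, (c k).Ok := by
    intro k
    refine ⟨?_, le_rfl, by change (0 : ℝ) < 1 / 4000000; norm_num⟩
    change ∑ _a ∈ ({()} : Finset Unit), nsq (win (fun i : Fin N => D.B (Sum.inl k) i) 0 k)
      ≤ 1 / 4000000
    rw [Finset.sum_singleton, nsq_win_eq (D.B (Sum.inl k)) k.2.le]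
    have h1 := D.tele (Sum.inl k) (Nat.zero_le k) (le_refl (k : ℕ))
    have h2 := D.hV0 (Sum.inl k) 0
    have h3 : D.V (Sum.inl k) k = ‖g (Sum.inl k) k‖ ^ 2 := rfl
    rw [hg1, norm_smul, mul_pow] at h3
    have h4 : ‖w k‖ ^ 2 ≤ 1 := pow_le_one₀ (norm_nonneg _) (hw k)
    norm_num at h3
    linarith
  have c2 := Ctrl.finset Finset.univ _ _ fun k _ => Ctrl.single (hc k)
  refine (c1.and c2).mono (fun i => ?_) ?_
  · have h1 := D.hB i
    rw [Finset.sum_filter, Fintype.sum_sum_type] at h1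
    have h2 : 0 ≤ ∑ e : Fin d, (if (i : ℕ) < D.T (Sum.inr e) then D.B (Sum.inr e) i ^ 2 else 0) :=
      Finset.sum_nonneg fun e _ => by
        split_ifs
        · positivity
        · exact le_rfl
    have h3 : ∀ k, (c k).load i = 4000000 *
        (if (i : ℕ) < D.T (Sum.inl k) then D.B (Sum.inl k) i ^ 2 else 0) := by
      intro k
      change (∑ _a ∈ ({()} : Finset Unit), win (fun i : Fin N => D.B (Sum.inl k) i) 0 k i ^ 2)
        * (1 / 4000000) / (1 / 4000000) ^ 2 = 4000000 *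
        (if (i : ℕ) < k then D.B (Sum.inl k) i ^ 2 else 0)
      rw [Finset.sum_singleton]
      unfold win
      by_cases h : (i : ℕ) < k
      · rw [if_pos ⟨Nat.zero_le _, h⟩, if_pos h]
        ring
      · rw [if_neg fun h' => h h'.2, if_neg h]
        ring
    simp_rw [h3]
    rw [← Finset.mul_sum]
    linarith
  · rintro x ⟨h1, h2⟩
    refine ⟨fun t ht => ?_, fun k hk => ?_⟩
    · refine le_trans (le_of_eq ?_) (h1 t ht)
      rw [← parseval' f w g hf hg1 hg2 hg3 ht, Finset.mul_sum]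
      refine Finset.sum_congr rfl fun ρ hρ => ?_
      have := sigma_eq f w g hg3 ρ x t (Finset.mem_filter.1 hρ).2
      change _ = lin (win (fun i : Fin N => 1 / 2000 * ⟪g ρ (i + 1), w i⟫) 0 t) x ^ 2
      rw [this]
      ring
    · have h3 := h2 ⟨k, hk⟩ (Finset.mem_univ _)
      change ∑ _a ∈ ({()} : Finset Unit), lin (win (fun i : Fin N =>
        1 / 2000 * ⟪g (Sum.inl ⟨k, hk⟩) (i + 1), w i⟫) 0 k) x ^ 2 ≤ 1 / 4000000 at h3
      rw [Finset.sum_singleton, sigma_eq f w g hg3 (Sum.inl ⟨k, hk⟩) x k (le_refl k),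
        hg1 ⟨k, hk⟩, real_inner_smul_left] at h3
      refine le_trans (le_of_eq ?_) h3
      ring

end Main

theorem main_nat (d N : ℕ) (w : ℕ → EuclideanSpace ℝ (Fin d)) (hw : ∀ k, ‖w k‖ ≤ 1) :
    ∃ ε : ℕ → ℤ, (∀ k < N, ε k = 1 ∨ ε k = -1) ∧ ∀ t ≤ N,
      ‖∑ i ∈ Finset.range t, (ε i : ℝ) • w i‖ ^ 2 ≤ 160000000000 * (40000 * (12 * d + 2)) := by
  choose f hf0 hf1 hf using fun k =>
    exists_cf (n := ‖w k‖ ^ 2) (pow_le_one₀ (norm_nonneg _) (hw k))
  choose g hga hg3 using fun ρ : Fin N ⊕ Fin d => exists_back (Tm ρ)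
    (Sum.elim (fun τ : Fin N => (1 / 2000 : ℝ) • w τ)
      (fun e : Fin d => EuclideanSpace.single e (1 : ℝ)) ρ) (fun t => Pm (f t) (w t))
  obtain ⟨L, hL, hload, hP⟩ := ctrl_main f w g hf (fun τ => hga (Sum.inl τ))
    (fun e => hga (Sum.inr e)) hg3 hw
  obtain ⟨ψ, h0, h1, h2, h3, h4⟩ := gauss_main L hL hload
  set u : ℕ → Fin N → ℝ := fun k i => if (i : ℕ) = k then 1 / 200 else 0 with hu
  set φ : ℕ → (Fin N → ℝ) → ℝ := fun k z => 200 * (f k * ⟪w k, Xs f w z k⟫) with hφ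
  obtain ⟨z, ε, hz0, hz1, hz2⟩ := split_single u φ
    (fun k j hkj z t => by
      simp only [hφ]
      rw [Xs_congr f w (x := z + t • u j) (y := z) k fun i hi => by
        simp only [hu, Pi.add_apply, Pi.smul_apply]
        rw [if_neg (by omega)]
        simp])
    N ψ {x | ∀ c ∈ L, c.q x ≤ c.β} h0 h1
    (fun x hx y hy a b ha hb hab c hc => by
      have h5 := c.q_convex x y ha hb hab
      have h6 := mul_le_mul_of_nonneg_left (hx c hc) ha
      have h7 := mul_le_mul_of_nonneg_left (hy c hc) hb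
      have h8 : a * c.β + b * c.β = c.β := by rw [← add_mul, hab, one_mul]
      linarith)
    (fun x hx c hc => by rw [Con.q_neg]; exact hx c hc) h2 h3
    (fun k hk => by
      have e : u k = (1 / 200 : ℝ) • Pi.single (⟨k, hk⟩ : Fin N) (1 : ℝ) := by
        ext i
        simp only [hu, Pi.smul_apply, Pi.single_apply, Fin.ext_iff, smul_eq_mul]
        split_ifs <;> simp
      rw [e]
      exact h4 _)
    (fun k hk z hz => by
      have h5 := (hP z hz).2 k hk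
      have h6 : |1 / 4000000 * ⟪w k, Xs f w z k⟫| ≤ 1 / 2000 :=
        abs_le_of_sq_le_sq' (by norm_num at h5 ⊢; exact h5) (by norm_num) |> abs_le.2
      simp only [hφ]
      rw [abs_mul, abs_mul, abs_of_nonneg (hf0 k)]
      rw [abs_mul] at h6
      have h7 := mul_le_mul_of_nonneg_right (hf1 k) (abs_nonneg ⟪w k, Xs f w z k⟫)
      norm_num at h6 h7 ⊢
      linarith)
  have hA : ∀ k m, k ≤ m → m ≤ N → ∀ i : Fin N, (i : ℕ) < k → z m i = z k i := by
    intro k m hkm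
    induction m, hkm using Nat.le_induction with
    | base => intro _ i _; rfl
    | succ m hkm ih =>
      intro hm i hi
      rw [(hz1 m hm).2, ← ih (by omega) i hi]
      simp only [hu, Pi.add_apply, Pi.smul_apply]
      rw [if_neg (by omega)]
      simp
  have hB : ∀ k, k ≤ N → ∀ i : Fin N, k ≤ (i : ℕ) → z k i = 0 := by
    intro k
    induction k with
    | zero => intro _ i _; rw [hz0]; rfl
    | succ k ih =>
      intro hk i hi
      rw [(hz1 k hk).2]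
      simp only [hu, Pi.add_apply, Pi.smul_apply]
      rw [if_neg (by omega), ih (by omega) i (by omega)]
      simp
  have hX : ∀ t, t ≤ N →
      Xs f w (z N) t = (1 / 200 : ℝ) • ∑ i ∈ Finset.range t, (ε i : ℝ) • w i := by
    intro t
    induction t with
    | zero => intro _; simp [Xs]
    | succ t ih =>
      intro ht
      have e1 : ext0 (z N) t = ((ε t : ℝ) + 200 * (f t * ⟪w t, Xs f w (z N) t⟫)) * (1 / 200) := by
        rw [ext0, dif_pos (by omega : t < N), hA (t + 1) N ht le_rfl _ (Nat.lt_succ_self t),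
          (hz1 t ht).2, Xs_congr f w (x := z N) (y := z t) t (hA t N (by omega) le_rfl)]
        simp only [hu, hφ, Pi.add_apply, Pi.smul_apply, smul_eq_mul]
        rw [hB t (by omega) _ le_rfl, if_pos trivial, zero_add]
      rw [Xs, e1, Finset.sum_range_succ, smul_add, ← ih (by omega), Pm]
      module
  refine ⟨ε, fun k hk => (hz1 k hk).1, fun t ht => ?_⟩
  have h5 := (hP _ hz2).1 t ht
  rw [hX t ht, norm_smul, mul_pow] at h5
  norm_num at h5 ⊢
  linarith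

end Crest.Agent.R239
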